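import Vale.Agent.P216.Stm

/-! Assembly of the abstract theorem and of the covering step. -/

open Set Metric

namespace Vale.Agent.P216

theorem sMain (hp : SPhi) (hf : SFin) (hg : SGap) (hs : SSep) (hx : SEx) (hh : SHom)
    (hfr : SFront) (hfl : SFlow) (hc : SConn) : SMain := by
  intro G X _ _ _ _ ε s τ hτ hB hfin
  have hF : Fn G X := hf G X ε s hfin
  obtain ⟨c₀, g, L₀, κ, hc₀, ⟨hL₀, hT, hP⟩, hg0, hκ, hgap⟩ := hg G X ε s τ hτ hF (hx G X ε s τ hτ)
  obtain ⟨m, hm, hnc⟩ := hB g hg0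
  apply hnc
  suffices h : Subgroup.centralizer ({g ^ m} : Set G) ≤ Subgroup.zpowers g from
    Subgroup.isCyclic_of_le h
  intro z hz
  have hzc : z * g ^ m * z⁻¹ = g ^ m := by
    rw [← Subgroup.mem_centralizer_singleton_iff.1 hz |>.symm, mul_inv_cancel_right]
  obtain ⟨η, hη, hηε, hline, hsep⟩ := hs G X ε s hF
  have hL : 0 < (m : ℝ) * L₀ := mul_pos (Nat.cast_pos.2 hm) hL₀
  obtain ⟨L, hLe⟩ : ∃ L, L = (m : ℝ) * L₀ := ⟨_, rfl⟩
  have hTu : Tr c₀ (g ^ m) L := hLe ▸ hT.pow m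
  rw [← hLe] at hL
  have hc₁ : Cl G fun t => z • c₀ t := s.cl hc₀ z
  have hTu' : Tr (fun t => z • c₀ t) (g ^ m) L := by
    have := hTu.conj z
    rwa [hzc] at this
  obtain ⟨F, hFc, hF0, hF1⟩ := hh G X (g ^ m) (fun t => c₀ (t * L)) (fun t => z • c₀ (t * L))
    (s.cont _) (hc₀.continuous.comp (by fun_prop)) (hc₁.continuous.comp (f := fun t => t * L)
      (by fun_prop)) (by simpa using hTu 0) (by simpa using hTu' 0)
  obtain ⟨k, C, hk, hkη, hfront⟩ := hfr G X ε s (g ^ m) L η c₀ _ F hL hη hηε (hline _ hc₀)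
    (hline _ hc₁) hTu hTu' hFc hF0 hF1
  obtain ⟨a, ha⟩ : ∃ a, a = L / k := ⟨_, rfl⟩
  rw [← ha] at hkη hfront
  have hk' : (0 : ℝ) < k := Nat.cast_pos.2 hk
  have ha0 : 0 < a := ha ▸ div_pos hL hk'
  have hka : k * a = m * L₀ := by rw [ha, hLe]; field_simp
  obtain ⟨δ, hδ, hsepa⟩ := hsep a ha0 hkη
  have hq : 0 < κ * (k * a ^ 2) := by positivity
  obtain ⟨n, hn⟩ := exists_nat_gt (max (C / (κ * (k * a ^ 2))) 0)
  have hn0 : (0 : ℝ) < n := (le_max_right _ _).trans_lt hn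
  have hnC : C < n * (κ * (k * a ^ 2)) := (div_lt_iff₀ hq).1 ((le_max_left _ _).trans_lt hn)
  have hn' : 0 < n := Nat.cast_pos.1 hn0
  obtain ⟨P, S, hPc, hS, hP0, hPS, hPch⟩ := hfront n hn'
  have hτ0 : 0 < τ g := (hτ.1 g).lt_of_ne' hg0
  have hw : (g ^ m) ^ n = g ^ ((m * n : ℕ) : ℤ) := by rw [zpow_natCast, pow_mul]
  have hw1 : (g ^ m) ^ n ≠ 1 := hw ▸ hτ.zpow_ne hg0 (by positivity)
  have hK : (0 : ℝ) < (n * k : ℕ) := by positivity
  obtain ⟨N, hN⟩ := hfl G X ε s ((g ^ m) ^ n) (n * k) a ((n * k : ℕ) * a ^ 2 + C) (δ / 2)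
    (Nat.mul_pos hn' hk) hw1 (half_pos hδ) (by
      intro γ c a' ha' hcl htr
      have h1 : τ (γ * (g ^ m) ^ n * γ⁻¹) = m * n * τ g := by
        rw [hτ.2.1, hw, hτ.2.2.1, abs_of_nonneg (by positivity)]
        push_cast
        ring
      have h2 : L₀ * (m * n * τ g) = (n * k : ℕ) * a * τ g := by
        push_cast
        linear_combination (-(n : ℝ) * τ g) * hka
      rcases hgap c _ _ hcl (mul_pos hK ha') htr with h | h
      · rw [h1, h2] at h
        exact Or.inl (mul_left_cancel₀ hK.ne' (mul_right_cancel₀ hg0 h))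
      · rw [h1, h2] at h
        have h3 : (1 + κ) * a ≤ a' := by
          refine le_of_mul_le_mul_left ?_ (mul_pos hK hτ0)
          linarith
        have h4 : (1 + κ) * a ^ 2 ≤ a' ^ 2 := by
          have h5 : ((1 + κ) * a) ^ 2 ≤ a' ^ 2 := by gcongr
          nlinarith [mul_pos hκ (pow_pos ha0 2), mul_pos (mul_pos hκ hκ) (pow_pos ha0 2)]
        have h6 := mul_le_mul_of_nonneg_left h4 hK.le
        have h7 : 0 < n * (κ * (k * a ^ 2)) := by positivity
        right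
        push_cast at h6 ⊢
        constructor <;> nlinarith)
  obtain ⟨hp1, -, -, hp4, -, -, hp7⟩ := hp G X ε s
  have hit : ∀ j : ℕ, (∀ σ, Stp ε (Phi^[j] (P σ))) ∧ Continuous fun σ => Phi^[j] (P σ) := by
    intro j
    induction j with
    | zero => exact ⟨fun σ => (hPch σ).1.1, hPc⟩
    | succ j ih =>
      simp only [Function.iterate_succ_apply']
      exact ⟨fun σ => hp1 _ (ih.1 σ), hp4.comp_continuous ih.2 ih.1⟩
  have hln : ∀ c : ℝ → X, Cl G c → ∀ j : ℕ, Phi^[j] (fun i : ℤ => c (i * a)) =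
      fun i : ℤ => c (i * a + j * (a / 2)) := by
    intro c hcl j
    induction j with
    | zero => simp
    | succ j ih =>
      rw [Function.iterate_succ_apply', ih, hp7 c η a _ (hline c hcl) ha0.le hkη (hkη.trans hηε)]
      push_cast
      simp only [add_mul, one_mul]
  obtain ⟨b, hb⟩ := hc G X a (δ / 2) S (fun σ => Phi^[N] (P σ) 0) (fun σ => Phi^[N] (P σ) 1)
    (fun t => c₀ (t + N * (a / 2))) (fun t => z • c₀ (t + N * (a / 2))) (half_pos hδ) hS
    ((continuous_apply 0).comp (hit N).2).continuousOn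
    ((continuous_apply 1).comp (hit N).2).continuousOn (hc₀.shift _) (hc₁.shift _)
    (by simpa only [mul_div_cancel₀ δ two_ne_zero] using hsepa)
    (fun σ _ => hN (P σ) (hPch σ).1 (hPch σ).2)
    (by simp only [hP0, hln c₀ hc₀]; simp) (by simp only [hP0, hln c₀ hc₀]; simp)
    (by simp only [hPS, hln _ hc₁]; simp) (by simp only [hPS, hln _ hc₁]; simp)
  obtain ⟨j, -, hj⟩ := hP z b fun t => by
    have := hb (t - N * (a / 2))
    simp only [sub_add_cancel] at this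
    rw [this]
    congr 1
    ring
  exact ⟨j, hj.symm⟩

/-- The diameter metric turns a topological covering into a metric covering. -/
theorem cover (ha : SDmA) (hb : SDmB) (hc : SDmC) (G X M : Type) [Group G]
    [τX : TopologicalSpace X] [PreconnectedSpace X] [MetricSpace M] [CompactSpace M]
    [MulAction G X] (p : X → M) (ε : ℝ) (hp : IsQuotientCoveringMap p G) (hM : Loc M ε) :
    ∃ (d : MetricSpace X) (ρ : ℝ), d.toUniformSpace.toTopologicalSpace = τX ∧
      @Cv G X M _ d _ _ p ρ := by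
  obtain ⟨a1, a2, a3, a4, a5, -, -⟩ := ha G X M p hp
  obtain ⟨ρ, hρ, b1, b2⟩ := hb G X M p ε hp hM
  have h0 : ∀ x y, dm p x y = 0 → x = y := fun x y h =>
    b2 x x y ((a1 x).trans_lt hρ) (h.trans_lt hρ) (dist_le_zero.1 ((a4 x y).trans h.le))
  refine ⟨MetricSpace.ofDistTopology (dm p) a1 a2 a3 (hc G X M p ε hp hM) h0, ρ, rfl, ?_⟩
  refine @Cv.mk G X M _ (_) _ _ p ρ hρ a5 (fun γ x h => ?_) (fun x y => hp.apply_eq_iff_mem_orbit)
    hp.surjective (fun x y h => ?_) b1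
  · have := hp.isCancelSMul
    exact IsCancelSMul.eq_one_of_smul h
  · have h' : dm p x y < ρ := h
    obtain ⟨y', h1, h2⟩ := b1 x (p y) ((a4 x y).trans_lt h')
    have := b2 x y' y (h2.trans_lt ((a4 x y).trans_lt h')) h' h1
    rw [← h2, this]
    rfl

end Vale.Agent.P216
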