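import Vale.Agent.P216.Defs
import Vale.Agent.P234.Base

/-! Internal definitions and statements of the steps. -/

open Set Metric

namespace Vale.Agent.P216

/-- Unique short segments, no branching. -/
structure Loc (X : Type) [MetricSpace X] (ε : ℝ) : Prop where
  pos : 0 < ε
  btw : ∀ (x y : X) (r : ℝ), dist x y ≤ 2 * ε → 0 ≤ r → r ≤ dist x y →
    ∃! z, dist x z = r ∧ dist z y = dist x y - r
  nb : ∀ x y z z' : X, x ≠ y → dist x z ≤ 2 * ε → dist x z = dist x y + dist y z →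
    dist x z' = dist x y + dist y z' → dist y z = dist y z' → z = z'

/-- Free, proper, cocompact isometric action. -/
structure St (G X : Type) [Group G] [MetricSpace X] [MulAction G X] (ε : ℝ) : Prop
    extends Loc X ε where
  iso : ∀ (γ : G) (x y : X), dist (γ • x) (γ • y) = dist x y
  free : ∀ (γ : G) (x : X), γ • x = x → γ = 1
  fin : ∀ K : Set X, IsCompact K → {γ : G | ∃ x ∈ K, γ • x ∈ K}.Finite
  cocpt : ∃ K : Set X, IsCompact K ∧ ∀ x, ∃ γ : G, γ • x ∈ K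
  ball : ∀ x : X, IsCompact (closedBall x (2 * ε))

/-- Metric covering. -/
structure Cv (G : Type) {X M : Type} [Group G] [MetricSpace X] [MetricSpace M] [MulAction G X]
    (p : X → M) (ρ : ℝ) : Prop where
  pos : 0 < ρ
  iso : ∀ (γ : G) (x y : X), dist (γ • x) (γ • y) = dist x y
  free : ∀ (γ : G) (x : X), γ • x = x → γ = 1
  orb : ∀ x y, p x = p y ↔ ∃ γ : G, γ • y = x
  surj : Function.Surjective p
  eq : ∀ x y, dist x y < ρ → dist (p x) (p y) = dist x y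
  lift : ∀ x m, dist (p x) m < ρ → ∃ y, p y = m ∧ dist x y = dist (p x) m

section

variable {G X : Type} [Group G] [MetricSpace X] [MulAction G X]

/-- Isometric at scale `η`. -/
def Line (η : ℝ) (c : ℝ → X) : Prop := ∀ s t, |s - t| ≤ η → dist (c s) (c t) = |s - t|

/-- `u` translates `c` by `L`. -/
def Tr (c : ℝ → X) (u : G) (L : ℝ) : Prop := ∀ t, c (t + L) = u • c t

variable (G) in
/-- Closed lines. -/
def Cl (c : ℝ → X) : Prop := (∃ η > 0, Line η c) ∧ ∃ (u : G) (L : ℝ), 0 < L ∧ Tr c u L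

variable (G) in
/-- Saturation of the image. -/
def sat (c : ℝ → X) : Set X := {x | ∃ (γ : G) (t : ℝ), x = γ • c t}

variable (G X) in
/-- Finitely many closed lines up to the action and shifts. -/
def Fn : Prop := ∃ F : Set (ℝ → X), F.Finite ∧ (∀ f ∈ F, Cl G f) ∧
  ∀ c, Cl G c → ∃ f ∈ F, ∃ (γ : G) (b : ℝ), ∀ t, c t = γ • f (t + b)

/-- `(g, L₀)` generates the translations of `c`. -/
def Prim (c : ℝ → X) (g : G) (L₀ : ℝ) : Prop :=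
  0 < L₀ ∧ Tr c g L₀ ∧ ∀ (u : G) (L : ℝ), Tr c u L → ∃ n : ℤ, L = n * L₀ ∧ u = g ^ n

/-- Short steps. -/
def Stp (ε : ℝ) (x : ℤ → X) : Prop := ∀ i, dist (x i) (x (i + 1)) ≤ ε

/-- Periodic chains. -/
def Ch (ε : ℝ) (w : G) (K : ℕ) (x : ℤ → X) : Prop := Stp ε x ∧ ∀ i, x (i + K) = w • x i

/-- Energy. -/
noncomputable def En (K : ℕ) (x : ℤ → X) : ℝ :=
  ∑ i ∈ Finset.range K, dist (x i) (x (i + 1)) ^ 2

/-- Midpoint. -/
noncomputable def mid (x y : X) : X :=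
  @Classical.epsilon X ⟨x⟩ fun z => dist x z = dist x y / 2 ∧ dist z y = dist x y / 2

/-- Birkhoff shortening. -/
noncomputable def Phi (x : ℤ → X) : ℤ → X := fun i => mid (x i) (x (i + 1))

/-- The chain lies on a closed line with equal steps. -/
def OnLine (w : G) (K : ℕ) (x : ℤ → X) : Prop := ∃ (c : ℝ → X) (a : ℝ), 0 < a ∧
  Line (a / 2) c ∧ Tr c w (K * a) ∧ (∀ i : ℤ, x i = c (i * a)) ∧ En K x = K * a ^ 2

theorem Line.continuous {η : ℝ} {c : ℝ → X} (h : Line η c) (hη : 0 < η) : Continuous c := by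
  refine continuous_iff_continuousAt.2 fun t => Metric.continuousAt_iff.2 fun r hr => ?_
  refine ⟨min r η, lt_min hr hη, fun s hs => ?_⟩
  rw [Real.dist_eq] at hs
  rw [h s t (hs.le.trans (min_le_right _ _))]
  exact hs.trans_le (min_le_left _ _)

theorem Line.mono {η η' : ℝ} {c : ℝ → X} (h : Line η c) (hη : η' ≤ η) : Line η' c :=
  fun s t hst => h s t (hst.trans hη)

theorem Line.shift {η : ℝ} {c : ℝ → X} (h : Line η c) (b : ℝ) : Line η fun t => c (t + b) :=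
  fun s t hst => by simpa using h (s + b) (t + b) (by simpa using hst)

theorem Line.rev {η : ℝ} {c : ℝ → X} (h : Line η c) : Line η fun t => c (-t) := fun s t hst => by
  have e : |-s - -t| = |s - t| := by rw [abs_sub_comm]; congr 1; ring
  simpa [e] using (h (-s) (-t) (by rwa [e])).trans e

omit [MetricSpace X] in
theorem Tr.neg {c : ℝ → X} {u : G} {L : ℝ} (h : Tr c u L) : Tr c u⁻¹ (-L) := fun t => by
  have := h (t + -L)
  rw [neg_add_cancel_right] at this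
  rw [this, inv_smul_smul]

omit [MetricSpace X] in
theorem Tr.add {c : ℝ → X} {u v : G} {L L' : ℝ} (h : Tr c u L) (h' : Tr c v L') :
    Tr c (u * v) (L + L') := fun t => by
  rw [add_comm L, ← add_assoc, h, h', mul_smul]

omit [MetricSpace X] in
theorem Tr.pow {c : ℝ → X} {u : G} {L : ℝ} (h : Tr c u L) (n : ℕ) : Tr c (u ^ n) (n * L) := by
  induction n with
  | zero => intro t; simp
  | succ n ih => rw [pow_succ, Nat.cast_succ, add_mul, one_mul]; exact ih.add h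

omit [MetricSpace X] in
theorem Tr.zpow {c : ℝ → X} {u : G} {L : ℝ} (h : Tr c u L) (n : ℤ) : Tr c (u ^ n) (n * L) := by
  obtain ⟨m, rfl | rfl⟩ := n.eq_nat_or_neg
  · simpa using h.pow m
  · simpa using (h.pow m).neg

omit [MetricSpace X] in
theorem Tr.conj {c : ℝ → X} {u : G} {L : ℝ} (h : Tr c u L) (γ : G) :
    Tr (fun t => γ • c t) (γ * u * γ⁻¹) L := fun t => by
  simp only [h t, mul_smul, inv_smul_smul]

theorem Cl.continuous {c : ℝ → X} (h : Cl G c) : Continuous c :=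
  let ⟨_, h1, h2⟩ := h.1; h2.continuous h1

theorem Cl.shift {c : ℝ → X} (h : Cl G c) (b : ℝ) : Cl G fun t => c (t + b) := by
  obtain ⟨⟨η, h1, h2⟩, u, L, h3, h4⟩ := h
  exact ⟨⟨η, h1, h2.shift b⟩, u, L, h3, fun t => by
    show c (t + L + b) = u • c (t + b)
    rw [add_right_comm, h4]⟩

theorem Cl.rev {c : ℝ → X} (h : Cl G c) : Cl G fun t => c (-t) := by
  obtain ⟨⟨η, h1, h2⟩, u, L, h3, h4⟩ := h
  exact ⟨⟨η, h1, h2.rev⟩, u⁻¹, L, h3, fun t => by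
    show c (-(t + L)) = u⁻¹ • c (-t)
    rw [neg_add, h4.neg]⟩

theorem St.line {ε η : ℝ} (s : St G X ε) {c : ℝ → X} (h : Line η c) (γ : G) :
    Line η fun t => γ • c t := fun a b hab => by rw [s.iso]; exact h a b hab

theorem St.cl {ε : ℝ} (s : St G X ε) {c : ℝ → X} (h : Cl G c) (γ : G) :
    Cl G fun t => γ • c t := by
  obtain ⟨⟨η, h1, h2⟩, u, L, h3, h4⟩ := h
  exact ⟨⟨η, h1, s.line h2 γ⟩, _, L, h3, h4.conj γ⟩

theorem St.cont {ε : ℝ} (s : St G X ε) (γ : G) : Continuous fun x : X => γ • x :=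
  (Isometry.of_dist_eq (s.iso γ)).continuous

theorem St.ch {ε : ℝ} (s : St G X ε) {w : G} {K : ℕ} {x : ℤ → X} (h : Ch ε w K x) (γ : G) :
    Ch ε (γ * w * γ⁻¹) K (γ • x) :=
  ⟨fun i => by simpa only [Pi.smul_apply, s.iso] using h.1 i,
    fun i => by simp only [Pi.smul_apply, h.2 i, mul_smul, inv_smul_smul]⟩

/-- The `ε`-neighbourhood of a compact set lies in a compact set. -/
theorem St.thick {ε : ℝ} (s : St G X ε) {K : Set X} (hK : IsCompact K) :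
    ∃ K' : Set X, IsCompact K' ∧ ∀ x ∈ K, ∀ y, dist x y ≤ ε → y ∈ K' := by
  obtain ⟨t, -, ht, hc⟩ := hK.finite_cover_balls s.pos
  refine ⟨⋃ z ∈ t, closedBall z (2 * ε), ht.isCompact_biUnion fun z _ => s.ball z, ?_⟩
  intro x hx y hy
  obtain ⟨z, hz, hxz⟩ := mem_iUnion₂.1 (hc hx)
  refine mem_iUnion₂.2 ⟨z, hz, ?_⟩
  rw [mem_ball] at hxz
  rw [mem_closedBall]
  linarith [dist_triangle y x z, dist_comm x y]

theorem OnLine.cl {w : G} {K : ℕ} {c : ℝ → X} {a : ℝ} (hK : 0 < K) (ha : 0 < a)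
    (h1 : Line (a / 2) c) (h2 : Tr c w (K * a)) : Cl G c :=
  ⟨⟨a / 2, half_pos ha, h1⟩, w, K * a, mul_pos (Nat.cast_pos.2 hK) ha, h2⟩

theorem En.nonneg (K : ℕ) (x : ℤ → X) : 0 ≤ En K x :=
  Finset.sum_nonneg fun _ _ => sq_nonneg _

theorem Gauge.one {τ : G → ℝ} (h : Gauge τ) : τ 1 = 0 := by simpa using h.2.2.1 1 0

theorem Gauge.zpow_ne {τ : G → ℝ} (h : Gauge τ) {a : G} (ha : τ a ≠ 0) {n : ℤ} (hn : n ≠ 0) :
    a ^ n ≠ 1 := fun e => by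
  have := h.2.2.1 a n
  rw [e, h.one] at this
  exact mul_ne_zero (abs_ne_zero.2 (Int.cast_ne_zero.2 hn)) ha this.symm

end

def SMid : Prop := ∀ (G X : Type) [Group G] [MetricSpace X] [MulAction G X] (ε : ℝ), St G X ε →
  (∀ x y : X, dist x y ≤ 2 * ε →
    dist x (mid x y) = dist x y / 2 ∧ dist (mid x y) y = dist x y / 2) ∧
  (∀ x y z : X, dist x y ≤ 2 * ε → dist x z = dist x y / 2 → dist z y = dist x y / 2 →
    mid x y = z) ∧
  (∀ (γ : G) (x y : X), dist x y ≤ 2 * ε → mid (γ • x) (γ • y) = γ • mid x y) ∧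
  ContinuousOn (fun q : X × X => mid q.1 q.2) {q | dist q.1 q.2 ≤ ε}

def SPhi : Prop := ∀ (G X : Type) [Group G] [MetricSpace X] [MulAction G X] (ε : ℝ), St G X ε →
  (∀ x : ℤ → X, Stp ε x → Stp ε (Phi x)) ∧
  (∀ (w : G) (K : ℕ) (x : ℤ → X), Ch ε w K x → Ch ε w K (Phi x) ∧ En K (Phi x) ≤ En K x) ∧
  (∀ (γ : G) (x : ℤ → X), Stp ε x → Phi (γ • x) = γ • Phi x) ∧
  ContinuousOn (Phi : (ℤ → X) → ℤ → X) {x | Stp ε x} ∧
  (∀ K : ℕ, Continuous (En K : (ℤ → X) → ℝ)) ∧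
  (∀ (K : ℕ) (γ : G) (x : ℤ → X), En K (γ • x) = En K x) ∧
  (∀ (c : ℝ → X) (η a b : ℝ), Line η c → 0 ≤ a → a ≤ η → a ≤ ε →
    Phi (fun i : ℤ => c (i * a + b)) = fun i : ℤ => c (i * a + (b + a / 2)))

def SEq : Prop := ∀ (G X : Type) [Group G] [MetricSpace X] [MulAction G X] (ε : ℝ), St G X ε →
  ∀ (w : G) (K : ℕ) (x : ℤ → X), 0 < K → w ≠ 1 → Ch ε w K x → En K (Phi x) = En K x →
  ∃ a > 0, (∀ i, dist (x i) (x (i + 1)) = a) ∧ ∀ i, dist (Phi x i) (Phi x (i + 1)) = a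

def SCurve : Prop := ∀ (G X : Type) [Group G] [MetricSpace X] [MulAction G X] (ε : ℝ), St G X ε →
  ∀ (w : G) (K : ℕ) (x : ℤ → X) (a : ℝ), 0 < a → Ch ε w K x →
  (∀ i, dist (x i) (x (i + 1)) = a) → (∀ i, dist (Phi x i) (Phi x (i + 1)) = a) → OnLine w K x

def SCpt : Prop := ∀ (G X : Type) [Group G] [MetricSpace X] [MulAction G X] (ε : ℝ), St G X ε →
  ∀ (w : G) (K : ℕ), ∃ (W : Set G) (Z : G → Set (ℤ → X)), W.Finite ∧
    (∀ v, IsCompact (Z v) ∧ ∀ y ∈ Z v, Ch ε v K y) ∧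
    ∀ x : ℤ → X, Ch ε w K x → ∃ γ : G, γ * w * γ⁻¹ ∈ W ∧ γ • x ∈ Z (γ * w * γ⁻¹)

def SPS : Prop := ∀ (G X : Type) [Group G] [MetricSpace X] [MulAction G X] (ε : ℝ), St G X ε →
  ∀ (w : G) (K : ℕ) (B : Set (ℤ → X)), 0 < K → w ≠ 1 → IsClosed B →
    (∀ (γ : G), ∀ x ∈ B, γ • x ∈ B) →
    (∀ (γ : G), ∀ x ∈ B, ¬ OnLine (γ * w * γ⁻¹) K x) →
    ∃ θ > 0, ∀ x ∈ B, Ch ε w K x → En K (Phi x) + θ ≤ En K x

def SUC : Prop := ∀ (X : Type) [MetricSpace X] (ε : ℝ), Loc X ε →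
  ∀ (c c' : ℝ → X) (η a : ℝ), Line η c → Line η c' → 0 < a → a ≤ η → a ≤ ε →
    c 0 = c' 0 → c a = c' a → c = c'

def SFin : Prop := ∀ (G X : Type) [Group G] [MetricSpace X] [MulAction G X] (ε : ℝ), St G X ε →
  {S | ∃ c : ℝ → X, Cl G c ∧ S = sat G c}.Finite → Fn G X

def SCyc : Prop := ∀ (G X : Type) [Group G] [MetricSpace X] [MulAction G X] (ε : ℝ), St G X ε →
  ∀ c : ℝ → X, Cl G c → ∃ (g : G) (L₀ : ℝ), Prim c g L₀

def SGap : Prop := ∀ (G X : Type) [Group G] [MetricSpace X] [MulAction G X] (ε : ℝ), St G X ε →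
  ∀ τ : G → ℝ, Gauge τ → Fn G X →
    (∃ (c : ℝ → X) (u : G) (L : ℝ), Cl G c ∧ 0 < L ∧ Tr c u L ∧ τ u ≠ 0) →
    ∃ (c₀ : ℝ → X) (g : G) (L₀ κ : ℝ), Cl G c₀ ∧ Prim c₀ g L₀ ∧ τ g ≠ 0 ∧ 0 < κ ∧
      ∀ (c : ℝ → X) (u : G) (L : ℝ), Cl G c → 0 < L → Tr c u L →
        L * τ g = L₀ * τ u ∨ (1 + κ) * (L₀ * τ u) ≤ L * τ g

def SSep : Prop := ∀ (G X : Type) [Group G] [MetricSpace X] [MulAction G X] (ε : ℝ), St G X ε →
  Fn G X → ∃ η > 0, η ≤ ε ∧ (∀ c : ℝ → X, Cl G c → Line η c) ∧ ∀ a, 0 < a → a ≤ η →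
    ∃ δ > 0, ∀ c c' : ℝ → X, Cl G c → Cl G c' → dist (c 0) (c' 0) < δ → dist (c a) (c' a) < δ →
      ∃ b, ∀ t, c' t = c (t + b)

def SEx : Prop := ∀ (G X : Type) [Group G] [MetricSpace X] [MulAction G X] [PathConnectedSpace X]
  (ε : ℝ), St G X ε → ∀ τ : G → ℝ, Gauge τ →
    ∃ (c : ℝ → X) (u : G) (L : ℝ), Cl G c ∧ 0 < L ∧ Tr c u L ∧ τ u ≠ 0

def SHom : Prop := ∀ (G X : Type) [Group G] [MetricSpace X] [MulAction G X]
  [SimplyConnectedSpace X] (u : G) (c c' : ℝ → X), Continuous (fun x : X => u • x) →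
    Continuous c → Continuous c' → c 1 = u • c 0 → c' 1 = u • c' 0 →
    ∃ F : ℝ × ℝ → X, Continuous F ∧ (∀ t ∈ Icc (0 : ℝ) 1, F (0, t) = c t ∧ F (1, t) = c' t) ∧
      ∀ s, F (s, 1) = u • F (s, 0)

def SPsi : Prop := ∀ k n : ℕ, 0 < k → 0 < n → ∃ ψ : ℝ → ℤ → ℝ,
  (∀ i, Continuous fun σ => ψ σ i) ∧ (∀ σ i, ψ σ i ∈ Icc (0 : ℝ) 1) ∧
  (∀ σ i, |ψ σ (i + 1) - ψ σ i| ≤ 1 / k) ∧ (∀ σ i, ψ σ (i + (n * k : ℕ)) = ψ σ i) ∧
  (∀ i, ψ 0 i = 0) ∧ (∀ i, ψ (n + 1) i = 1) ∧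
  ∀ σ, ∃ D : Finset ℕ, D.card ≤ 2 * k + 8 ∧ ∀ i < n * k, i ∉ D →
    (ψ σ i = 0 ∧ ψ σ (i + 1) = 0) ∨ (ψ σ i = 1 ∧ ψ σ (i + 1) = 1)

def SFront : Prop := ∀ (G X : Type) [Group G] [MetricSpace X] [MulAction G X] (ε : ℝ), St G X ε →
  ∀ (u : G) (L η : ℝ) (c c' : ℝ → X) (F : ℝ × ℝ → X), 0 < L → 0 < η → η ≤ ε →
    Line η c → Line η c' → Tr c u L → Tr c' u L → Continuous F →
    (∀ t ∈ Icc (0 : ℝ) 1, F (0, t) = c (t * L) ∧ F (1, t) = c' (t * L)) →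
    (∀ s, F (s, 1) = u • F (s, 0)) →
    ∃ (k : ℕ) (C : ℝ), 0 < k ∧ L / k ≤ η ∧ ∀ n : ℕ, 0 < n → ∃ (P : ℝ → ℤ → X) (S : ℝ),
      Continuous P ∧ 0 ≤ S ∧ (P 0 = fun i : ℤ => c (i * (L / k))) ∧
      (P S = fun i : ℤ => c' (i * (L / k))) ∧
      ∀ σ, Ch ε (u ^ n) (n * k) (P σ) ∧ En (n * k) (P σ) ≤ (n * k : ℕ) * (L / k) ^ 2 + C

/-- The flow brings every chain below the gap close to a closed line, in uniform time. -/
def SFlow : Prop := ∀ (G X : Type) [Group G] [MetricSpace X] [MulAction G X] (ε : ℝ), St G X ε →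
  ∀ (w : G) (K : ℕ) (a E₀ δ : ℝ), 0 < K → w ≠ 1 → 0 < δ →
    (∀ (γ : G) (c : ℝ → X) (a' : ℝ), 0 < a' → Cl G c → Tr c (γ * w * γ⁻¹) (K * a') →
      a' = a ∨ (K * a ^ 2 ≤ K * a' ^ 2 ∧ E₀ < K * a' ^ 2)) →
    ∃ N : ℕ, ∀ x : ℤ → X, Ch ε w K x → En K x ≤ E₀ → ∃ c : ℝ → X, Cl G c ∧
      dist (Phi^[N] x 0) (c 0) < δ ∧ dist (Phi^[N] x 1) (c a) < δ

/-- Connectedness step. -/
def SConn : Prop := ∀ (G X : Type) [Group G] [MetricSpace X] [MulAction G X]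
  (a δ S : ℝ) (Q₀ Q₁ : ℝ → X) (c c' : ℝ → X), 0 < δ → 0 ≤ S →
    ContinuousOn Q₀ (Icc 0 S) → ContinuousOn Q₁ (Icc 0 S) → Cl G c → Cl G c' →
    (∀ c c' : ℝ → X, Cl G c → Cl G c' → dist (c 0) (c' 0) < 2 * δ → dist (c a) (c' a) < 2 * δ →
      ∃ b, ∀ t, c' t = c (t + b)) →
    (∀ σ ∈ Icc 0 S, ∃ e : ℝ → X, Cl G e ∧ dist (Q₀ σ) (e 0) < δ ∧ dist (Q₁ σ) (e a) < δ) →
    Q₀ 0 = c 0 → Q₁ 0 = c a → Q₀ S = c' 0 → Q₁ S = c' a → ∃ b, ∀ t, c' t = c (t + b)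

def SMain : Prop := ∀ (G X : Type) [Group G] [MetricSpace X] [MulAction G X]
  [SimplyConnectedSpace X] (ε : ℝ), St G X ε → ∀ τ : G → ℝ, Gauge τ → BigCent τ →
    {S | ∃ c : ℝ → X, Cl G c ∧ S = sat G c}.Infinite

def SProd : Prop := ∀ (G : Type) [Group G] (τ : G → ℝ), Gauge τ → IsProduct G → BigCent τ

def SFC : Prop := ∀ (G : Type) [Group G] (τ : G → ℝ), Gauge τ → HasFC G → BigCent τ

def SLift : Prop := ∀ (G X M : Type) [Group G] [MetricSpace X] [MetricSpace M] [CompactSpace M]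
  [MulAction G X] (p : X → M) (ρ ε : ℝ), Cv G p ρ → Loc M ε → 16 * ε ≤ ρ → St G X ε

/-- The diameter metric. -/
noncomputable def dm {X M : Type} [TopologicalSpace X] [MetricSpace M] (p : X → M) (x y : X) : ℝ :=
  sInf {r | ∃ C : Set X, IsPreconnected C ∧ x ∈ C ∧ y ∈ C ∧ r = diam (p '' C)}

def SDmA : Prop := ∀ (G X M : Type) [Group G] [TopologicalSpace X] [PreconnectedSpace X]
  [MetricSpace M] [CompactSpace M] [MulAction G X] (p : X → M), IsQuotientCoveringMap p G →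
    (∀ x, dm p x x = 0) ∧ (∀ x y, dm p x y = dm p y x) ∧
    (∀ x y z, dm p x z ≤ dm p x y + dm p y z) ∧ (∀ x y, dist (p x) (p y) ≤ dm p x y) ∧
    (∀ (γ : G) x y, dm p (γ • x) (γ • y) = dm p x y) ∧
    (∀ C x y, IsPreconnected C → x ∈ C → y ∈ C → dm p x y ≤ diam (p '' C)) ∧
    ∀ x y r, dm p x y < r → ∃ C, IsPreconnected C ∧ x ∈ C ∧ y ∈ C ∧ p '' C ⊆ ball (p x) r

def SDmB : Prop := ∀ (G X M : Type) [Group G] [TopologicalSpace X] [PreconnectedSpace X]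
  [MetricSpace M] [CompactSpace M] [MulAction G X] (p : X → M) (ε : ℝ),
    IsQuotientCoveringMap p G → Loc M ε → ∃ ρ > 0,
    (∀ x m, dist (p x) m < ρ → ∃ y, p y = m ∧ dm p x y = dist (p x) m) ∧
    (∀ x y y', dm p x y < ρ → dm p x y' < ρ → p y = p y' → y = y')

def SDmC : Prop := ∀ (G X M : Type) [Group G] [TopologicalSpace X] [PreconnectedSpace X]
  [MetricSpace M] [CompactSpace M] [MulAction G X] (p : X → M) (ε : ℝ),
    IsQuotientCoveringMap p G → Loc M ε →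
    ∀ s : Set X, IsOpen s ↔ ∀ x ∈ s, ∃ r > 0, ∀ y, dm p x y < r → y ∈ s

def SSeg : Prop := ∀ (M : Type) [MetricSpace M] (ε : ℝ), Loc M ε → ∀ x y : M, dist x y ≤ 2 * ε →
  ∃ γ : Path x y, ∀ s t : unitInterval, dist (γ s) (γ t) = |(s : ℝ) - t| * dist x y

open scoped Manifold ContDiff in
def SRiem : Prop := ∀ (E : Type) [NormedAddCommGroup E] [NormedSpace ℝ E] [FiniteDimensional ℝ E]
  (M : Type) [MetricSpace M] [CompactSpace M] [ChartedSpace E M] [IsManifold 𝓘(ℝ, E) ∞ M]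
  (g : M → E →L[ℝ] E →L[ℝ] ℝ), P234.RM g → ∃ ε₀ > 0, (∀ ε, 0 < ε → ε ≤ ε₀ → Loc M ε) ∧
    ∀ (c : ℝ → M) (η : ℝ), 0 < η → Line η c → P255.IsGeodesicOn g c univ

end Vale.Agent.P216
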