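import Vale.Agent.P216.Defs2
import Vale.Agent.P216.Stm

/-! The gauge of a balanced element. -/

namespace Vale.Agent.P216

variable {G : Type} [Group G]

theorem isConj_zpow {a b : G} (h : IsConj a b) (n : ℤ) : IsConj (a ^ n) (b ^ n) := by
  obtain ⟨c, rfl⟩ := isConj_iff.1 h
  exact isConj_iff.2 ⟨c, conj_zpow.symm⟩

theorem Balanced.exists_gauge {w : G} (hw : Balanced w) : ∃ τ : G → ℝ, Gauge τ ∧
    ∀ a, τ a ≠ 0 → ∃ n j : ℤ, n ≠ 0 ∧ IsConj (a ^ n) (w ^ j) := by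
  classical
  let R : G → ℝ → Prop := fun a r =>
    ∃ n j : ℤ, n ≠ 0 ∧ IsConj (a ^ n) (w ^ j) ∧ r = |(j : ℝ)| / |(n : ℝ)|
  have huniq : ∀ a r r', R a r → R a r' → r = r' := by
    rintro a _ _ ⟨n, j, hn, h, rfl⟩ ⟨n', j', hn', h', rfl⟩
    have h1 := isConj_zpow h n'
    have h2 := isConj_zpow h' n
    rw [← zpow_mul, ← zpow_mul] at h1 h2
    rw [mul_comm n'] at h2
    have h3 := hw _ _ (h1.symm.trans h2)
    have h4 : |(j : ℝ)| * |(n' : ℝ)| = |(j' : ℝ)| * |(n : ℝ)| := by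
      rw [abs_mul, abs_mul] at h3
      exact_mod_cast h3
    rw [div_eq_div_iff (abs_ne_zero.2 (Int.cast_ne_zero.2 hn))
      (abs_ne_zero.2 (Int.cast_ne_zero.2 hn')), h4]
  let τ : G → ℝ := fun a => if h : ∃ r, R a r then h.choose else 0
  have hτ : ∀ a r, R a r → τ a = r := fun a r h => by
    have h' : ∃ r, R a r := ⟨r, h⟩
    simp only [τ, dif_pos h']
    exact huniq a _ _ h'.choose_spec h
  have hτ0 : ∀ a, (¬ ∃ r, R a r) → τ a = 0 := fun a h => by simp only [τ, dif_neg h]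
  have hconj : ∀ a b r, IsConj a b → R a r → R b r := by
    rintro a b _ hab ⟨n, j, hn, h, rfl⟩
    exact ⟨n, j, hn, (isConj_zpow hab n).symm.trans h, rfl⟩
  refine ⟨τ, ⟨fun a => ?_, fun a h => ?_, fun a k => ?_, w, ?_⟩, fun a ha => ?_⟩
  · by_cases h : ∃ r, R a r
    · obtain ⟨r, hr⟩ := h
      rw [hτ a r hr]
      obtain ⟨n, j, -, -, rfl⟩ := hr
      positivity
    · rw [hτ0 a h]
  · have hc : IsConj a (h * a * h⁻¹) := isConj_iff.2 ⟨h, rfl⟩
    by_cases h' : ∃ r, R a r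
    · obtain ⟨r, hr⟩ := h'
      rw [hτ a r hr, hτ _ r (hconj _ _ r hc hr)]
    · rw [hτ0 a h', hτ0 _ fun ⟨r, hr⟩ => h' ⟨r, hconj _ _ r hc.symm hr⟩]
  · by_cases h' : ∃ r, R a r
    · obtain ⟨r, hr⟩ := h'
      rw [hτ a r hr]
      obtain ⟨n, j, hn, h, rfl⟩ := hr
      rw [hτ (a ^ k) _ ⟨n, j * k, hn, by
        rw [← zpow_mul, mul_comm k, zpow_mul, zpow_mul]
        exact isConj_zpow h k, rfl⟩]
      push_cast
      rw [abs_mul]
      ring
    · rw [hτ0 a h', mul_zero]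
      rcases eq_or_ne k 0 with rfl | hk
      · rw [hτ _ _ ⟨1, 0, one_ne_zero, by simp, rfl⟩]
        simp
      · refine hτ0 _ fun ⟨r, n, j, hn, h, _⟩ => h' ⟨_, k * n, j, mul_ne_zero hk hn, ?_, rfl⟩
        rwa [zpow_mul]
  · rw [hτ w _ ⟨1, 1, one_ne_zero, IsConj.refl _, rfl⟩]
    simp
  · by_contra h
    exact ha (hτ0 a fun ⟨r, n, j, hn, hc, _⟩ => h ⟨n, j, hn, hc⟩)

theorem bigCent_of_cent {w : G} {τ : G → ℝ}
    (h : ∀ a, τ a ≠ 0 → ∃ n j : ℤ, n ≠ 0 ∧ IsConj (a ^ n) (w ^ j))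
    (hw : ¬ IsCyclic (Subgroup.centralizer ({w} : Set G))) : BigCent τ := by
  intro a ha
  obtain ⟨n, j, hn, hc⟩ := h a ha
  obtain ⟨j', hc'⟩ : ∃ j' : ℤ, IsConj (a ^ n.natAbs) (w ^ j') := by
    rcases Int.natAbs_eq n with e | e
    · exact ⟨j, by rwa [← zpow_natCast, ← e]⟩
    · refine ⟨j * -1, ?_⟩
      have := isConj_zpow hc (-1)
      rwa [← zpow_mul, ← zpow_mul, e, neg_mul_neg, mul_one, zpow_natCast, Int.natAbs_neg,
        Int.natAbs_natCast] at *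
  refine ⟨n.natAbs, Int.natAbs_pos.2 hn, fun hcy => hw ?_⟩
  obtain ⟨c, hc⟩ := isConj_iff.1 hc'
  let f : Subgroup.centralizer ({w} : Set G) →* Subgroup.centralizer ({a ^ n.natAbs} : Set G) :=
    ((MulAut.conj c⁻¹).toMonoidHom.comp (Subgroup.subtype _)).codRestrict _ fun x => by
      have hx : Commute x.1 (w ^ j') :=
        Commute.zpow_right (Subgroup.mem_centralizer_singleton_iff.1 x.2) j'
      rw [← hc] at hx
      rw [Subgroup.mem_centralizer_singleton_iff]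
      have := congrArg (fun y => c⁻¹ * y * c) hx.eq
      simpa [mul_assoc] using this
  refine isCyclic_of_injective f fun x y hxy => Subtype.ext ?_
  simpa [f] using congrArg Subtype.val hxy

theorem balanced_of_hom (χ : G →* Multiplicative ℤ) {w : G} (hw : χ w ≠ 1) : Balanced w := by
  intro i j h
  obtain ⟨c, hc⟩ := isConj_iff.1 h
  have h1 := congrArg (fun y => (χ y).toAdd) hc
  have h2 : (χ w).toAdd ≠ 0 := by simpa using hw
  have h3 : i * (χ w).toAdd = j * (χ w).toAdd := by simpa using h1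
  rw [mul_right_cancel₀ h2 h3]

end Vale.Agent.P216
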