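import Vale.Agent.P216.Stm

/-! Connectedness step. -/

open Set Filter Topology

namespace Vale.Agent.P216

theorem sConn : SConn := by
  intro G X _ _ _ a δ S Q₀ Q₁ c c' hδ hS h0 h1 hc hc' sep H e0 e1 f0 f1
  let A : ℝ → Prop := fun σ => ∃ b, dist (Q₀ σ) (c (0 + b)) < δ ∧ dist (Q₁ σ) (c (a + b)) < δ
  have key : ∀ (σ : ℝ) (e : ℝ → X), Cl G e → dist (Q₀ σ) (e 0) < δ → dist (Q₁ σ) (e a) < δ →
      (A σ ↔ ∃ b, ∀ t, e t = c (t + b)) := fun σ e he d0 d1 => by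
    refine ⟨fun ⟨b, b0, b1⟩ => ?_, fun ⟨b, hb⟩ => ⟨b, hb 0 ▸ d0, hb a ▸ d1⟩⟩
    obtain ⟨b', hb'⟩ := sep _ e (hc.shift b) he
      (by linarith [dist_triangle_left (c (0 + b)) (e 0) (Q₀ σ)])
      (by linarith [dist_triangle_left (c (a + b)) (e a) (Q₁ σ)])
    exact ⟨b' + b, fun t => by rw [hb', add_assoc]⟩
  have := isPreconnected_Icc.induction₂' (fun x y => A x → A y) (fun σ hσ => ?_)
    (fun _ _ _ _ _ _ p q => q ∘ p) (left_mem_Icc.2 hS) (right_mem_Icc.2 hS)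
  · refine (key S c' hc' (by rwa [f0, dist_self]) (by rwa [f1, dist_self])).1 (this ⟨0, ?_, ?_⟩)
    · rwa [add_zero, e0, dist_self]
    · rwa [add_zero, e1, dist_self]
  obtain ⟨e, he, d0, d1⟩ := H σ hσ
  have t0 : Tendsto (fun s => dist (Q₀ s) (e 0)) (𝓝[Icc 0 S] σ) (𝓝 (dist (Q₀ σ) (e 0))) :=
    (h0 σ hσ).tendsto.dist tendsto_const_nhds
  have t1 : Tendsto (fun s => dist (Q₁ s) (e a)) (𝓝[Icc 0 S] σ) (𝓝 (dist (Q₁ σ) (e a))) :=
    (h1 σ hσ).tendsto.dist tendsto_const_nhds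
  filter_upwards [t0.eventually_lt_const d0, t1.eventually_lt_const d1] with s s0 s1
  have i := (key σ e he d0 d1).trans (key s e he s0 s1).symm
  exact ⟨i.1, i.2⟩

end Vale.Agent.P216
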