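import Vale.Agent.P216.Stm

/-! Compactness of periodic chains modulo the action. -/

open Set Metric

namespace Vale.Agent.P216

namespace CptAux

variable {G X : Type} [Group G] [MetricSpace X] [MulAction G X]

theorem tower {ε : ℝ} (s : St G X ε) {K₀ : Set X} (h : IsCompact K₀) :
    ∃ Kn : ℕ → Set X, Kn 0 = K₀ ∧ (∀ n, IsCompact (Kn n)) ∧
      ∀ n, ∀ x ∈ Kn n, ∀ y, dist x y ≤ ε → y ∈ Kn (n + 1) := by
  have hT : ∀ K : {K : Set X // IsCompact K}, ∃ K' : {K : Set X // IsCompact K},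
      ∀ x ∈ K.1, ∀ y, dist x y ≤ ε → y ∈ K'.1 := fun K => by
    obtain ⟨K', h1, h2⟩ := s.thick K.2
    exact ⟨⟨K', h1⟩, h2⟩
  choose T hT using hT
  refine ⟨fun n => (T^[n] ⟨K₀, h⟩).1, rfl, fun n => (T^[n] ⟨K₀, h⟩).2, fun n x hx y hy => ?_⟩
  show y ∈ (T^[n + 1] ⟨K₀, h⟩).1
  rw [Function.iterate_succ_apply']
  exact hT _ x hx y hy

theorem mem_tower {ε : ℝ} {Kn : ℕ → Set X}
    (hK : ∀ n, ∀ x ∈ Kn n, ∀ y, dist x y ≤ ε → y ∈ Kn (n + 1)) {y : ℤ → X} (hy : Stp ε y)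
    (h0 : y 0 ∈ Kn 0) (i : ℤ) : y i ∈ Kn i.natAbs := by
  have hp : ∀ n : ℕ, y n ∈ Kn n := by
    intro n
    induction n with
    | zero => simpa using h0
    | succ n ih =>
      have := hK n _ ih _ (hy n)
      simpa using this
  have hn : ∀ n : ℕ, y (-(n : ℤ)) ∈ Kn n := by
    intro n
    induction n with
    | zero => simpa using h0
    | succ n ih =>
      have h1 := hy (-((n + 1 : ℕ) : ℤ))
      have e : -((n + 1 : ℕ) : ℤ) + 1 = -(n : ℤ) := by push_cast; ring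
      rw [e, dist_comm] at h1
      exact hK n _ ih _ h1
  obtain ⟨n, rfl | rfl⟩ := i.eq_nat_or_neg
  · simpa using hp n
  · simpa using hn n

theorem closed {ε : ℝ} (s : St G X ε) (v : G) (K : ℕ) : IsClosed {y : ℤ → X | Ch ε v K y} := by
  have h1 : IsClosed {y : ℤ → X | Stp ε y} := by
    simp only [Stp, ofPred_forall]
    exact isClosed_iInter fun i =>
      isClosed_le ((continuous_apply i).dist (continuous_apply (i + 1))) continuous_const
  have h2 : IsClosed {y : ℤ → X | ∀ i : ℤ, y (i + K) = v • y i} := by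
    simp only [ofPred_forall]
    exact isClosed_iInter fun i =>
      isClosed_eq (continuous_apply _) ((s.cont v).comp (continuous_apply i))
  exact h1.inter h2

end CptAux

theorem sCpt : SCpt := by
  intro G X _ _ _ ε s w K
  obtain ⟨K₀, hK₀, hcov⟩ := s.cocpt
  obtain ⟨Kn, h0, hc, hstep⟩ := CptAux.tower s hK₀
  refine ⟨{v | ∃ x ∈ K₀ ∪ Kn K, v • x ∈ K₀ ∪ Kn K}, fun v => {y | Ch ε v K y ∧ y 0 ∈ K₀},
    s.fin _ (hK₀.union (hc K)), fun v => ⟨?_, fun y hy => hy.1⟩, fun x hx => ?_⟩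
  · refine (isCompact_univ_pi fun i : ℤ => hc i.natAbs).of_isClosed_subset
      ((CptAux.closed s v K).inter (hK₀.isClosed.preimage (continuous_apply 0))) ?_
    intro y hy i _
    exact CptAux.mem_tower hstep hy.1.1 (h0 ▸ hy.2) i
  · obtain ⟨γ, hγ⟩ := hcov (x 0)
    have h1 := s.ch hx γ
    have h2 : (γ • x) 0 ∈ K₀ := hγ
    refine ⟨γ, ⟨(γ • x) 0, Or.inl h2, Or.inr ?_⟩, h1, h2⟩
    rw [← h1.2 0, zero_add]
    simpa using CptAux.mem_tower hstep h1.1 (h0 ▸ h2) (K : ℤ)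

end Vale.Agent.P216
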