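import Vale.Agent.P216.Stm

/-! A chain with equal steps whose midpoints have the same steps lies on a line. -/

open Set Metric

namespace Vale.Agent.P216

namespace CurveAux

theorem exists_curve {X : Type} [MetricSpace X] (x : ℤ → X) (a : ℝ) (ha : 0 < a)
    (g : ∀ i : ℤ, Path (x i) (x (i + 1)))
    (hg : ∀ (i : ℤ) (s t : unitInterval), dist (g i s) (g i t) = |(s : ℝ) - t| * a) :
    ∃ c : ℝ → X, (∀ i : ℤ, c (i * a) = x i) ∧ ∀ (i : ℤ) (s t : ℝ), i * a ≤ s → s ≤ (i + 1) * a →
      i * a ≤ t → t ≤ (i + 1) * a → dist (c s) (c t) = |s - t| := by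
  have cell : ∀ (i : ℤ) (t : ℝ), i * a ≤ t → t ≤ (i + 1) * a →
      (g ⌊t / a⌋).extend (Int.fract (t / a)) = (g i).extend (t / a - i) := by
    intro i t h1 h2
    rcases h2.lt_or_eq with h | h
    · have e : ⌊t / a⌋ = i := by
        rw [Int.floor_eq_iff]
        exact ⟨(le_div_iff₀ ha).2 h1, (div_lt_iff₀ ha).2 h⟩
      subst e
      rfl
    · have e1 : t / a = ((i + 1 : ℤ) : ℝ) := by
        rw [h, mul_div_cancel_right₀ _ ha.ne']
        push_cast
        ring
      have e2 : ((i + 1 : ℤ) : ℝ) - i = 1 := by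
        push_cast
        ring
      rw [e1, Int.fract_intCast, Path.extend_zero, Int.floor_intCast, e2, Path.extend_one]
  have mem : ∀ (i : ℤ) (t : ℝ), i * a ≤ t → t ≤ (i + 1) * a → t / a - i ∈ Icc (0 : ℝ) 1 := by
    intro i t h1 h2
    have h3 := (le_div_iff₀ ha).2 h1
    have h4 := (div_le_iff₀ ha).2 h2
    constructor <;> linarith
  refine ⟨fun t => (g ⌊t / a⌋).extend (Int.fract (t / a)), fun i => ?_,
    fun i s t h1 h2 h3 h4 => ?_⟩
  · show (g ⌊(i * a) / a⌋).extend (Int.fract ((i * a) / a)) = x i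
    rw [cell i (i * a) le_rfl (by nlinarith), mul_div_cancel_right₀ _ ha.ne', sub_self,
      Path.extend_zero]
  · show dist ((g ⌊s / a⌋).extend (Int.fract (s / a))) ((g ⌊t / a⌋).extend (Int.fract (t / a))) = _
    rw [cell i s h1 h2, cell i t h3 h4, Path.extend_apply _ (mem i s h1 h2),
      Path.extend_apply _ (mem i t h3 h4), hg]
    show |s / a - i - (t / a - i)| * a = |s - t|
    have e : s / a - i - (t / a - i) = (s - t) / a := by ring
    rw [e, abs_div, abs_of_pos ha, div_mul_cancel₀ _ ha.ne']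

end CurveAux

theorem sCurve (hm : SMid) (hs : SSeg) : SCurve := by
  intro G X _ _ _ ε st w K x a ha hch hx hphi
  have hε := st.pos
  have haε : a ≤ ε := hx 0 ▸ hch.1 0
  have h2 : ∀ i, dist (x i) (x (i + 1)) ≤ 2 * ε := fun i => by rw [hx]; linarith
  choose g hg using fun i : ℤ => hs X ε st.toLoc (x i) (x (i + 1)) (h2 i)
  obtain ⟨c, hc0, hc⟩ := CurveAux.exists_curve x a ha g fun i s t => by rw [hg, hx]
  have hc1 : ∀ i : ℤ, c ((i + 1) * a) = x (i + 1) := fun i => by
    have := hc0 (i + 1)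
    rwa [Int.cast_add, Int.cast_one] at this
  have hl : ∀ (i : ℤ) (t : ℝ), i * a ≤ t → t ≤ (i + 1) * a → dist (x i) (c t) = t - i * a := by
    intro i t h1 h3
    rw [← hc0 i, hc i (i * a) t le_rfl (by linarith) h1 h3, abs_sub_comm,
      abs_of_nonneg (by linarith)]
  have hr : ∀ (i : ℤ) (t : ℝ), i * a ≤ t → t ≤ (i + 1) * a →
      dist (c t) (x (i + 1)) = (i + 1) * a - t := by
    intro i t h1 h3
    rw [← hc1 i, hc i t ((i + 1) * a) h1 h3 (by linarith) le_rfl, abs_sub_comm,
      abs_of_nonneg (by linarith)]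
  have hmid : ∀ i : ℤ, Phi x i = c (i * a + a / 2) := fun i => by
    refine (hm G X ε st).2.1 (x i) (x (i + 1)) _ (h2 i) ?_ ?_
    · rw [hl i _ (by linarith) (by linarith), hx]
      ring
    · rw [hr i _ (by linarith) (by linarith), hx]
      ring
  have hfl : ∀ t : ℝ, (⌊t / a⌋ : ℝ) * a ≤ t ∧ t ≤ ((⌊t / a⌋ : ℝ) + 1) * a := fun t =>
    ⟨(le_div_iff₀ ha).1 (Int.floor_le _), (div_le_iff₀ ha).1 (Int.lt_floor_add_one _).le⟩
  have key : ∀ s t : ℝ, s ≤ t → t ≤ s + a / 2 → dist (c s) (c t) = t - s := by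
    intro s t hst hts
    obtain ⟨h1, h3⟩ := hfl s
    generalize ⌊s / a⌋ = i at h1 h3
    by_cases h : t ≤ (i + 1) * a
    · rw [hc i s t h1 h3 (by linarith) h, abs_sub_comm, abs_of_nonneg (by linarith)]
    · have h' : (i + 1) * a < t := not_le.1 h
      have e1 : ((i + 1 : ℤ) : ℝ) = i + 1 := by push_cast; ring
      have u1 := hr i s h1 h3
      have u2 := hl (i + 1) t (by rw [e1]; linarith) (by rw [e1]; linarith)
      rw [e1] at u2
      have u3 := hc i (i * a + a / 2) s (by linarith) (by linarith) h1 h3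
      rw [abs_sub_comm, abs_of_nonneg (by linarith)] at u3
      have u4 := hc (i + 1) t ((i + 1) * a + a / 2) (by rw [e1]; linarith) (by rw [e1]; linarith)
        (by rw [e1]; linarith) (by rw [e1]; linarith)
      rw [abs_sub_comm, abs_of_nonneg (by linarith)] at u4
      have u5 := hphi i
      rw [hmid i, hmid (i + 1), e1] at u5
      have u6 := dist_triangle (c s) (x (i + 1)) (c t)
      have u7 := dist_triangle4 (c (i * a + a / 2)) (c s) (c t) (c ((i + 1) * a + a / 2))
      linarith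
  refine ⟨c, a, ha, fun s t hst => ?_, fun t => ?_, fun i => (hc0 i).symm, ?_⟩
  · rcases le_total s t with h | h
    · rw [abs_sub_comm, abs_of_nonneg (by linarith)] at hst ⊢
      exact key s t h (by linarith)
    · rw [abs_of_nonneg (by linarith)] at hst ⊢
      rw [dist_comm]
      exact key t s h (by linarith)
  · obtain ⟨h1, h3⟩ := hfl t
    generalize ⌊t / a⌋ = i at h1 h3
    have e1 : ((i + K : ℤ) : ℝ) = i + K := by push_cast; ring
    have e2 : i + K + 1 = i + 1 + K := by ring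
    have v1 := hl (i + K) (t + K * a) (by rw [e1]; linarith) (by rw [e1]; linarith)
    have v2 := hr (i + K) (t + K * a) (by rw [e1]; linarith) (by rw [e1]; linarith)
    rw [e1] at v1 v2
    have v3 : dist (x (i + K)) (w • c t) = t - i * a := by
      rw [hch.2 i, st.iso, hl i t h1 h3]
    have v4 : dist (w • c t) (x (i + K + 1)) = (i + 1) * a - t := by
      rw [e2, hch.2 (i + 1), st.iso, hr i t h1 h3]
    have hu := st.btw (x (i + K)) (x (i + K + 1)) (t - i * a) (h2 _) (by linarith)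
      (by rw [hx]; linarith)
    refine hu.unique ⟨by rw [v1]; ring, by rw [v2, hx]; ring⟩ ⟨v3, by rw [v4, hx]; ring⟩
  · simp [En, hx]

end Vale.Agent.P216
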