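import Vale.Agent.P216.Stm

/-! The translations of a closed line form a cyclic group. -/

open Set Metric

namespace Vale.Agent.P216

namespace CycAux

/-- The translation lengths. -/
def lens (G : Type) {X : Type} [Group G] [MulAction G X] (c : ℝ → X) : AddSubgroup ℝ where
  carrier := {L | ∃ u : G, Tr c u L}
  zero_mem' := ⟨1, fun t => by simp⟩
  add_mem' := fun ⟨u, hu⟩ ⟨v, hv⟩ => ⟨u * v, hu.add hv⟩
  neg_mem' := fun ⟨u, hu⟩ => ⟨u⁻¹, hu.neg⟩

theorem not_dense {G X : Type} [Group G] [MetricSpace X] [MulAction G X] {ε η : ℝ}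
    (s : St G X ε) {c : ℝ → X} (hη : 0 < η) (hc : Line η c) :
    ¬Dense (lens G c : Set ℝ) := by
  intro hd
  have hK : IsCompact (c '' Icc 0 η) := isCompact_Icc.image (hc.continuous hη)
  have hF := (s.fin _ hK).image (fun γ : G => dist (γ • c 0) (c 0))
  have hB : ((lens G c : Set ℝ) ∩ Ioo 0 η).Finite := by
    refine hF.subset ?_
    rintro L ⟨⟨u, hu⟩, h0, h1⟩
    have e : c L = u • c 0 := by simpa using hu 0
    refine ⟨u, ⟨c 0, ⟨0, ⟨le_rfl, hη.le⟩, rfl⟩, L, ⟨h0.le, h1.le⟩, e⟩, ?_⟩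
    have h2 : |L - 0| = L := by rw [sub_zero, abs_of_pos h0]
    show dist (u • c 0) (c 0) = L
    rw [← e, hc L 0 (by rw [h2]; exact h1.le), h2]
  obtain ⟨y, hy, hy'⟩ := hd.exists_between hη
  obtain ⟨m, hm, hmin⟩ := Set.exists_min_image _ id hB ⟨y, hy, hy'⟩
  obtain ⟨z, hz, hz'⟩ := hd.exists_between hm.2.1
  have h3 : m ≤ z := hmin z ⟨hz, hz'.1, hz'.2.trans hm.2.2⟩
  exact absurd hz'.2 (not_lt.2 h3)

end CycAux

theorem sCyc : SCyc := by
  intro G X _ _ _ ε s c ⟨⟨η, hη, hc⟩, w, L₁, hL₁, hw⟩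
  rcases AddSubgroup.dense_or_cyclic (CycAux.lens G c) with hd | ⟨a, ha⟩
  · exact absurd hd (CycAux.not_dense s hη hc)
  have hmem : ∀ (u : G) (L : ℝ), Tr c u L → ∃ n : ℤ, L = n * a := by
    intro u L hu
    have h1 : L ∈ CycAux.lens G c := ⟨u, hu⟩
    rw [ha, AddSubgroup.mem_closure_singleton] at h1
    obtain ⟨n, hn⟩ := h1
    exact ⟨n, by rw [← hn, zsmul_eq_mul]⟩
  have ha0 : a ≠ 0 := by
    obtain ⟨n, hn⟩ := hmem w L₁ hw
    rintro rfl
    rw [mul_zero] at hn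
    exact hL₁.ne' hn
  have haA : a ∈ CycAux.lens G c := by
    rw [ha]
    exact AddSubgroup.subset_closure rfl
  have hab : |a| ∈ CycAux.lens G c := by
    rcases abs_choice a with h | h <;> rw [h]
    · exact haA
    · exact neg_mem haA
  obtain ⟨g, hg⟩ := hab
  refine ⟨g, |a|, abs_pos.2 ha0, hg, fun u L hu => ?_⟩
  obtain ⟨n, hn⟩ : ∃ n : ℤ, L = n * |a| := by
    obtain ⟨n, hn⟩ := hmem u L hu
    rcases abs_choice a with h | h <;> rw [h]
    · exact ⟨n, hn⟩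
    · exact ⟨-n, by rw [hn]; push_cast; ring⟩
  refine ⟨n, hn, ?_⟩
  have h1 := hu 0
  have h2 := hg.zpow n 0
  rw [← hn, h1] at h2
  have h3 : ((g ^ n)⁻¹ * u) • c 0 = c 0 := by rw [mul_smul, h2, inv_smul_smul]
  exact (inv_mul_eq_one.1 (s.free _ _ h3)).symm

end Vale.Agent.P216
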