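import Vale.Agent.P234.Defs

/-! Closed geodesics and homogeneous class functions on the fundamental group. -/

open scoped Manifold ContDiff

namespace Vale.Agent.P216

open Vale.Agent.P255

/-- The images of the closed geodesics of `g`: nonconstant periodic geodesics `ℝ → M`. -/
def Images {E : Type} [NormedAddCommGroup E] [NormedSpace ℝ E] {M : Type} [TopologicalSpace M]
    [ChartedSpace E M] (g : M → E →L[ℝ] E →L[ℝ] ℝ) : Set (Set M) :=
  {S | ∃ c : ℝ → M, IsGeodesicOn g c Set.univ ∧ (∃ s t, c s ≠ c t) ∧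
    (∃ T > 0, ∀ t, c (t + T) = c t) ∧ S = Set.range c}

/-- A nonzero, nonnegative, conjugation invariant and homogeneous function on a group. -/
def Gauge {G : Type} [Group G] (τ : G → ℝ) : Prop :=
  (∀ a, 0 ≤ τ a) ∧ (∀ a h, τ (h * a * h⁻¹) = τ a) ∧ (∀ a (n : ℤ), τ (a ^ n) = |(n : ℝ)| * τ a) ∧
    ∃ a, τ a ≠ 0

/-- Every element with `τ a ≠ 0` has a positive power whose centraliser is not cyclic. -/
def BigCent {G : Type} [Group G] (τ : G → ℝ) : Prop :=
  ∀ a, τ a ≠ 0 → ∃ m : ℕ, 0 < m ∧ ¬ IsCyclic (Subgroup.centralizer ({a ^ m} : Set G))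

/-- `G` is a direct product of two nontrivial groups. -/
def IsProduct (G : Type) [Group G] : Prop :=
  ∃ (A B : Type) (_ : Group A) (_ : Group B), Nontrivial A ∧ Nontrivial B ∧ Nonempty (G ≃* A × B)

/-- `G` has a nontrivial element with finitely many conjugates, and no cyclic subgroup of
finite index. -/
def HasFC (G : Type) [Group G] : Prop :=
  (∃ z : G, z ≠ 1 ∧ {y | IsConj z y}.Finite) ∧ ∀ H : Subgroup G, IsCyclic H → ¬ H.FiniteIndex

end Vale.Agent.P216
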