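import Vale.Agent.P216.Defs

/-! Balanced elements. -/

namespace Vale.Agent.P216

/-- Two powers of `w` are conjugate only if their exponents agree up to sign. -/
def Balanced {G : Type} [Group G] (w : G) : Prop :=
  ∀ i j : ℤ, IsConj (w ^ i) (w ^ j) → |i| = |j|

end Vale.Agent.P216
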