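import Vale.Agent.P216.Stm

/-! Basic properties of the diameter metric, and short segments. -/

open Set Metric

namespace Vale.Agent.P216

namespace DmAAux

variable {X M : Type} [TopologicalSpace X] [MetricSpace M] (p : X → M)

lemma ub {C : Set X} {x y : X} (hC : IsPreconnected C) (hx : x ∈ C) (hy : y ∈ C) :
    dm p x y ≤ diam (p '' C) :=
  csInf_le ⟨0, by rintro _ ⟨C, -, -, -, rfl⟩; exact diam_nonneg⟩ ⟨C, hC, hx, hy, rfl⟩

lemma ne [PreconnectedSpace X] (x y : X) :
    {r | ∃ C : Set X, IsPreconnected C ∧ x ∈ C ∧ y ∈ C ∧ r = diam (p '' C)}.Nonempty :=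
  ⟨_, univ, isPreconnected_univ, trivial, trivial, rfl⟩

lemma lb [PreconnectedSpace X] {x y : X} {b : ℝ}
    (h : ∀ C : Set X, IsPreconnected C → x ∈ C → y ∈ C → b ≤ diam (p '' C)) : b ≤ dm p x y :=
  le_csInf (ne p x y) (by rintro _ ⟨C, h1, h2, h3, rfl⟩; exact h C h1 h2 h3)

end DmAAux

open DmAAux in
theorem sDmA : SDmA := by
  intro G X M _ _ _ _ _ _ p hp
  have hd : ∀ x y, dist (p x) (p y) ≤ dm p x y := fun x y => lb p fun C _ hx hy =>
    dist_le_diam_of_mem isBounded_of_compactSpace (mem_image_of_mem p hx) (mem_image_of_mem p hy)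
  have hs : ∀ x y, dm p x y ≤ dm p y x := fun x y => lb p fun C hC hy hx => ub p hC hx hy
  have hi : ∀ (γ : G) x y, dm p (γ • x) (γ • y) ≤ dm p x y := fun γ x y => lb p fun C hC hx hy => by
    have h1 := ub p (hC.image (fun z => γ • z)
      (hp.toContinuousConstSMul.continuous_const_smul γ).continuousOn) (mem_image_of_mem _ hx)
      (mem_image_of_mem _ hy)
    simpa only [image_image, hp.map_smul] using h1
  refine ⟨fun x => le_antisymm ?_ (dist_nonneg.trans (hd x x)),
    fun x y => le_antisymm (hs x y) (hs y x), fun x y z => ?_, hd,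
    fun γ x y => le_antisymm (hi γ x y) ?_, fun C x y hC hx hy => ub p hC hx hy, fun x y r hr => ?_⟩
  · simpa using ub p (isPreconnected_singleton (x := x)) rfl rfl
  · have : dm p x z - dm p x y ≤ dm p y z := lb p fun C' hC' hy' hz => by
      have : dm p x z - diam (p '' C') ≤ dm p x y := lb p fun C hC hx hy => by
        have h1 := ub p (hC.union y hy hy' hC') (Or.inl hx) (Or.inr hz)
        have h2 := diam_union (mem_image_of_mem p hy) (mem_image_of_mem p hy')
        rw [dist_self] at h2
        rw [image_union] at h1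
        linarith
      linarith
    linarith
  · simpa only [inv_smul_smul] using hi γ⁻¹ (γ • x) (γ • y)
  · obtain ⟨_, ⟨C, hC, hx, hy, rfl⟩, h⟩ := exists_lt_of_csInf_lt (ne p x y) hr
    exact ⟨C, hC, hx, hy, fun q hq => (dist_le_diam_of_mem isBounded_of_compactSpace hq
      (mem_image_of_mem p hx)).trans_lt h⟩

theorem sSeg : SSeg := by
  intro M _ ε h x y hxy
  have hd : 0 ≤ dist x y := dist_nonneg
  have hz : ∀ s : unitInterval, ∃! z, dist x z = s * dist x y ∧
      dist z y = dist x y - s * dist x y := fun s =>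
    h.btw x y _ hxy (mul_nonneg s.2.1 hd) (mul_le_of_le_one_left hd s.2.2)
  choose z h1 h2 using hz
  have k : ∀ s t : unitInterval, (s : ℝ) ≤ t → dist (z s) (z t) = (t - s) * dist x y := by
    intro s t hst
    obtain ⟨q, ⟨q1, q2⟩, -⟩ := h.btw x (z t) (s * dist x y)
      (by rw [(h1 t).1]; exact (mul_le_of_le_one_left hd t.2.2).trans hxy) (mul_nonneg s.2.1 hd)
      (by rw [(h1 t).1]; exact mul_le_mul_of_nonneg_right hst hd)
    rw [(h1 t).1] at q2
    have e : q = z s := h2 s q ⟨q1, le_antisymm (by linarith [dist_triangle q (z t) y, (h1 t).2])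
      (by linarith [dist_triangle x q y])⟩
    rw [← e, q2]
    ring
  have k2 : ∀ s t : unitInterval, dist (z s) (z t) = |(s : ℝ) - t| * dist x y := by
    intro s t
    rcases le_total (s : ℝ) t with c | c
    · rw [k s t c, abs_sub_comm, abs_of_nonneg (sub_nonneg.2 c)]
    · rw [dist_comm, k t s c, abs_of_nonneg (sub_nonneg.2 c)]
  have hc : Continuous z := (LipschitzWith.of_dist_le_mul (K := nndist x y) fun s t => by
    rw [k2, coe_nndist, mul_comm]
    rfl).continuous
  refine ⟨⟨⟨z, hc⟩, ?_, ?_⟩, k2⟩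
  · exact (dist_eq_zero.1 (by simpa using (h1 0).1)).symm
  · exact dist_eq_zero.1 (by simpa using (h1 1).2)

end Vale.Agent.P216
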