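import Vale.Agent.P216.Stm

/-! Lifting of short distances and local injectivity for the diameter metric. -/

open Set Metric

namespace Vale.Agent.P216

namespace DmBAux

/-- Over an evenly covered open set the projection is injective on preconnected sets. -/
theorem loc_inj {X M I : Type} [TopologicalSpace X] [TopologicalSpace M] [TopologicalSpace I]
    {p : X → M} {m : M} (h : IsEvenlyCovered p m I) : ∃ U : Set M, m ∈ U ∧ IsOpen U ∧
      ∀ C : Set X, IsPreconnected C → C ⊆ p ⁻¹' U → ∀ y ∈ C, ∀ y' ∈ C, p y = p y' → y = y' := by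
  obtain ⟨hd, U, hm, hU, -, H, hH⟩ := h
  refine ⟨U, hm, hU, fun C hC hCU y hy y' hy' e => ?_⟩
  have h1 : IsPreconnected ((↑) ⁻¹' C : Set (p ⁻¹' U)) := by
    rw [← Topology.IsInducing.subtypeVal.isPreconnected_image, Subtype.image_preimage_coe,
      inter_eq_right.mpr hCU]
    exact hC
  have h2 : Continuous fun z : p ⁻¹' U => (H z).2 := continuous_snd.comp H.continuous
  have h3 : (H ⟨y, hCU hy⟩).2 = (H ⟨y', hCU hy'⟩).2 :=
    h1.constant h2.continuousOn (x := ⟨y, hCU hy⟩) (y := ⟨y', hCU hy'⟩) hy hy'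
  have h4 : (H ⟨y, hCU hy⟩).1 = (H ⟨y', hCU hy'⟩).1 := Subtype.ext (by rw [hH, hH]; exact e)
  exact congrArg Subtype.val (H.injective (Prod.ext h4 h3))

end DmBAux

theorem sDmB (ha : SDmA) (hs : SSeg) : SDmB := by
  intro G X M _ _ _ _ _ _ p ε hp hl
  have cov := hp.isCoveringMap
  obtain ⟨-, -, -, hle, -, hdiam, hex⟩ := ha G X M p hp
  choose U hmU hUo hU using fun m : M => DmBAux.loc_inj (cov m)
  obtain ⟨δ, hδ, hleb⟩ := lebesgue_number_lemma_of_metric (isCompact_univ (X := M)) hUo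
    (fun m _ => mem_iUnion.2 ⟨m, hmU m⟩)
  refine ⟨min δ ε, lt_min hδ hl.pos, fun x m hxm => ?_, fun x y y' hy hy' e => ?_⟩
  · have h1 : dist (p x) m ≤ 2 * ε := by
      have := hxm.trans_le (min_le_right _ _)
      linarith [hl.pos]
    obtain ⟨γ, hγ⟩ := hs M ε hl (p x) m h1
    obtain ⟨Γ, hΓ, hΓ0⟩ := cov.exists_path_lifts γ.toContinuousMap x γ.source
    have h2 : ∀ t, p (Γ t) = γ t := fun t => congrFun hΓ t
    have h3 : p (Γ 1) = m := (h2 1).trans γ.target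
    refine ⟨Γ 1, h3, le_antisymm ?_ (h3 ▸ hle x (Γ 1))⟩
    refine (hdiam (range Γ) x (Γ 1) (isPreconnected_range Γ.continuous) ⟨0, hΓ0⟩ ⟨1, rfl⟩).trans ?_
    refine diam_le_of_forall_dist_le dist_nonneg ?_
    rintro _ ⟨_, ⟨s, rfl⟩, rfl⟩ _ ⟨_, ⟨t, rfl⟩, rfl⟩
    rw [h2, h2, hγ]
    refine mul_le_of_le_one_left dist_nonneg (abs_le.mpr ⟨?_, ?_⟩)
    · linarith [s.2.1, t.2.2]
    · linarith [s.2.2, t.2.1]
  · obtain ⟨C, hC, hx, hyC, hb⟩ := hex x y δ (hy.trans_le (min_le_left _ _))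
    obtain ⟨C', hC', hx', hyC', hb'⟩ := hex x y' δ (hy'.trans_le (min_le_left _ _))
    obtain ⟨m, hm⟩ := hleb (p x) (mem_univ _)
    refine hU m (C ∪ C') (hC.union x hx hx' hC') ?_ y (Or.inl hyC) y' (Or.inr hyC') e
    rintro z (hz | hz)
    · exact hm (hb ⟨z, hz, rfl⟩)
    · exact hm (hb' ⟨z, hz, rfl⟩)

end Vale.Agent.P216
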