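import Vale.Agent.P216.Stm

/-! The diameter metric induces the topology of the covering space. -/

open Set Metric Filter Topology

namespace Vale.Agent.P216

theorem sDmC (ha : SDmA) (hs : SSeg) : SDmC := by
  intro G X M _ _ _ _ _ _ p ε hp hl s
  obtain ⟨-, -, -, -, -, h1, h2⟩ := ha G X M p hp
  have hc := hp.isCoveringMap
  constructor
  · intro ho x hx
    obtain ⟨e, he, rfl⟩ := hc.isLocalHomeomorph x
    have k : ∀ᶠ m in 𝓝 (e x), e.symm m ∈ s :=
      e.continuousAt_symm (e.map_source he) (ho.mem_nhds (by rwa [e.left_inv he]))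
    obtain ⟨r, r0, hr⟩ := Metric.eventually_nhds_iff_ball.1
      (k.and (e.open_target.mem_nhds (e.map_source he)))
    refine ⟨r, r0, fun y hy => ?_⟩
    obtain ⟨C, c1, c2, c3, c4⟩ := h2 x y r hy
    have t : ∀ z ∈ C, e z ∈ e.target := fun z hz => (hr _ (c4 ⟨z, hz, rfl⟩)).2
    have := hc.eqOn_of_comp_eqOn c1 continuousOn_id
      (e.continuousOn_symm.comp hc.continuous.continuousOn t)
      (fun z hz => (e.right_inv (t z hz)).symm) c2 (e.left_inv he).symm c3
    exact (show y = e.symm (e y) from this) ▸ (hr _ (c4 ⟨y, c3, rfl⟩)).1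
  · refine fun h => isOpen_iff_mem_nhds.2 fun x hx => ?_
    obtain ⟨r, r0, hr⟩ := h x hx
    obtain ⟨e, he, rfl⟩ := hc.isLocalHomeomorph x
    obtain ⟨q, q0, hq⟩ := Metric.isOpen_iff.1 e.open_target _ (e.map_source he)
    filter_upwards [e.open_source.mem_nhds he, hc.continuous.continuousAt
      (ball_mem_nhds (e x) (lt_min r0 (lt_min q0 hl.pos)))] with y y1 y2
    rw [mem_preimage, mem_ball', lt_min_iff, lt_min_iff] at y2
    obtain ⟨γ, hγ⟩ := hs M ε hl (e x) (e y) (by linarith [y2.2.2, hl.pos])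
    have d : ∀ a b, dist (γ a) (γ b) ≤ dist (e x) (e y) := fun a b => by
      rw [hγ]
      refine mul_le_of_le_one_left dist_nonneg (abs_le.2 ⟨?_, ?_⟩) <;>
        linarith [a.2.1, a.2.2, b.2.1, b.2.2]
    have t : ∀ a, γ a ∈ e.target := fun a => hq (by
      have := d a 0
      rw [γ.source] at this
      exact this.trans_lt y2.2.1)
    refine hr y ((h1 (range fun a => e.symm (γ a)) x y (isPreconnected_range
      (e.continuousOn_symm.comp_continuous γ.continuous t)) ⟨0, by simp [he]⟩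
      ⟨1, by simp [y1]⟩).trans_lt (lt_of_le_of_lt (diam_le_of_forall_dist_le dist_nonneg ?_) y2.1))
    rintro _ ⟨_, ⟨a, rfl⟩, rfl⟩ _ ⟨_, ⟨b, rfl⟩, rfl⟩
    rw [e.right_inv (t a), e.right_inv (t b)]
    exact d a b

end Vale.Agent.P216
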