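import Vale.Agent.P216.Stm

/-! The equality case of the Birkhoff shortening. -/

open Set Metric

namespace Vale.Agent.P216

namespace EqAux

theorem ext_per {P : ℤ → Prop} {K : ℕ} (hK : 0 < K) (hp : Function.Periodic P (K : ℤ))
    (h : ∀ i : ℕ, i < K → P i) (i : ℤ) : P i := by
  have k0 : (0 : ℤ) < K := Nat.cast_pos.2 hK
  have e : i = i % K + (i / K) * K := (Int.emod_add_ediv_mul i K).symm
  have h1 := hp.int_mul (i / K) (i % K)
  rw [Int.cast_id] at h1
  rw [e, h1]
  obtain ⟨n, hn⟩ := Int.eq_ofNat_of_zero_le (Int.emod_nonneg i k0.ne')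
  have := Int.emod_lt_of_pos i k0
  rw [hn] at this ⊢
  exact h n (Nat.cast_lt.1 this)

theorem real {d e : ℤ → ℝ} {K : ℕ} (hK : 0 < K) (hd : ∀ i, d (i + K) = d i)
    (he : ∀ i, e (i + K) = e i) (e0 : ∀ i, 0 ≤ e i) (hle : ∀ i, e i ≤ (d i + d (i + 1)) / 2)
    (hs : ∑ i ∈ Finset.range K, e i ^ 2 = ∑ i ∈ Finset.range K, d i ^ 2) :
    (∀ i, d i = d 0) ∧ ∀ i, e i = d 0 := by
  have s1 : ∑ i ∈ Finset.range K, (d ((i : ℤ) + 1) ^ 2 - d i ^ 2) = 0 := by
    have := Finset.sum_range_sub (fun i : ℕ => d i ^ 2) K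
    have h0 := hd 0
    rw [zero_add] at h0
    rw [h0, Nat.cast_zero, sub_self] at this
    simpa only [Nat.cast_succ] using this
  have s2 : ∑ i ∈ Finset.range K, ((d i ^ 2 + d ((i : ℤ) + 1) ^ 2) / 2 - e i ^ 2) = 0 := by
    rw [Finset.sum_sub_distrib] at s1
    rw [Finset.sum_sub_distrib, ← Finset.sum_div, Finset.sum_add_distrib]
    linarith
  have sq : ∀ i, e i ^ 2 ≤ ((d i + d (i + 1)) / 2) ^ 2 := fun i => pow_le_pow_left₀ (e0 i) (hle i) 2
  rw [Finset.sum_eq_zero_iff_of_nonneg fun i _ => by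
    nlinarith [sq i, sq_nonneg (d i - d (i + 1))]] at s2
  have key : ∀ i, d (i + 1) = d i ∧ e i = d i := by
    refine ext_per hK (fun i => ?_) fun i hi => ?_
    · rw [add_right_comm, hd, hd, he]
    · have h1 := s2 i (Finset.mem_range.2 hi)
      have h2 : d ((i : ℤ) + 1) = d i := by
        have : (d ((i : ℤ) + 1) - d i) ^ 2 = 0 := le_antisymm (by nlinarith [sq i]) (sq_nonneg _)
        exact sub_eq_zero.1 (pow_eq_zero_iff two_ne_zero |>.1 this)
      refine ⟨h2, ?_⟩
      have h3 := hle i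
      rw [h2] at h1 h3
      exact (pow_left_inj₀ (e0 i) (by linarith [e0 i]) two_ne_zero).1 (by linarith)
  have c : ∀ i, d i = d 0 := fun i => by
    induction i using Int.induction_on with
    | zero => rfl
    | succ n ih => rw [(key n).1, ih]
    | pred n ih => rw [← (key (-n - 1)).1, sub_add_cancel, ih]
  exact ⟨c, fun i => (key i).2.trans (c i)⟩

end EqAux

theorem sEq (hm : SMid) : SEq := by
  intro G X _ _ _ ε s w K x hK hw hx hE
  obtain ⟨m1, -, m3, -⟩ := hm G X ε s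
  have b : ∀ i, dist (x i) (x (i + 1)) ≤ 2 * ε := fun i => by linarith [hx.1 i, s.pos]
  have x1 : ∀ i, x (i + K + 1) = w • x (i + 1) := fun i => by rw [add_right_comm, hx.2]
  have pp : ∀ i, Phi x (i + K) = w • Phi x i := fun i => by
    show mid (x (i + K)) (x (i + K + 1)) = w • mid (x i) (x (i + 1))
    rw [x1, hx.2, m3 w _ _ (b i)]
  obtain ⟨h1, h2⟩ := EqAux.real (d := fun i => dist (x i) (x (i + 1)))
    (e := fun i => dist (Phi x i) (Phi x (i + 1))) hK
    (fun i => by rw [x1, hx.2, s.iso])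
    (fun i => by rw [add_right_comm, pp, pp, s.iso]) (fun _ => dist_nonneg)
    (fun i => by
      have t := dist_triangle (Phi x i) (x (i + 1)) (Phi x (i + 1))
      have a1 : dist (Phi x i) (x (i + 1)) = _ := (m1 _ _ (b i)).2
      have a2 : dist (x (i + 1)) (Phi x (i + 1)) = _ := (m1 _ _ (b (i + 1))).1
      linarith) hE
  refine ⟨_, lt_of_le_of_ne dist_nonneg fun h0 => hw ?_, h1, h2⟩
  have c : ∀ n : ℕ, x n = x 0 := fun n => by
    induction n with
    | zero => rfl
    | succ n ih => rw [Nat.cast_succ, ← dist_eq_zero.1 ((h1 n).trans h0.symm), ih]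
  refine s.free w (x 0) ?_
  rw [← hx.2, zero_add, c]

end Vale.Agent.P216
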