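import Vale.Agent.P216.Stm

/-! Existence of one closed line with nonzero gauge. -/

open Set Metric

namespace Vale.Agent.P216

namespace ExAux

variable {G X : Type} [Group G] [MetricSpace X] [MulAction G X]

theorem chain [PathConnectedSpace X] {ε : ℝ} (s : St G X ε) (w : G) :
    ∃ (K : ℕ) (x : ℤ → X), 0 < K ∧ Ch ε w K x := by
  obtain ⟨x₀⟩ : Nonempty X := inferInstance
  obtain ⟨γ⟩ : Joined x₀ (w • x₀) := PathConnectedSpace.joined _ _
  have hu : UniformContinuousOn γ.extend (Icc (0 : ℝ) 1) :=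
    isCompact_Icc.uniformContinuousOn_of_continuous γ.continuous_extend.continuousOn
  obtain ⟨δ, hδ, hd⟩ := Metric.uniformContinuousOn_iff_le.1 hu ε s.pos
  obtain ⟨n, hn⟩ := exists_nat_one_div_lt hδ
  obtain ⟨K, hK⟩ : ∃ K : ℕ, K = n + 1 := ⟨_, rfl⟩
  have hK0 : 0 < K := by omega
  have hKz : (0 : ℤ) < K := by exact_mod_cast hK0
  have hKr : (0 : ℝ) < K := by exact_mod_cast hK0
  have hn' : 1 / (K : ℝ) ≤ δ := by rw [hK]; push_cast; exact hn.le
  refine ⟨K, fun i => w ^ (i / (K : ℤ)) • γ.extend (((i % (K : ℤ) : ℤ) : ℝ) / K), hK0, ?_, ?_⟩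
  · intro i
    have h0 : 0 ≤ i % (K : ℤ) := Int.emod_nonneg _ hKz.ne'
    have h1 : i % (K : ℤ) < K := Int.emod_lt_of_pos _ hKz
    have h2 : i % (K : ℤ) + K * (i / (K : ℤ)) = i := Int.emod_add_mul_ediv i K
    have key : w ^ ((i + 1) / (K : ℤ)) • γ.extend ((((i + 1) % (K : ℤ) : ℤ) : ℝ) / K) =
        w ^ (i / (K : ℤ)) • γ.extend ((((i % (K : ℤ) : ℤ) : ℝ) + 1) / K) := by
      rcases lt_or_eq_of_le (show i % (K : ℤ) + 1 ≤ K by omega) with h | h
      · obtain ⟨e1, e2⟩ := (Int.ediv_emod_unique (a := i + 1) (r := i % (K : ℤ) + 1)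
          (q := i / (K : ℤ)) hKz).2 ⟨by linarith, by omega, h⟩
        rw [e1, e2, Int.cast_add, Int.cast_one]
      · obtain ⟨e1, e2⟩ := (Int.ediv_emod_unique (a := i + 1) (r := 0)
          (q := i / (K : ℤ) + 1) hKz).2 ⟨by linarith, le_rfl, hKz⟩
        have e3 : (((i % (K : ℤ) : ℤ) : ℝ) + 1) / K = 1 := by
          rw [div_eq_one_iff_eq hKr.ne']
          exact_mod_cast h
        rw [e1, e2, e3, Int.cast_zero, zero_div, γ.extend_zero, γ.extend_one, zpow_add_one,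
          mul_smul]
    have h0r : (0 : ℝ) ≤ ((i % (K : ℤ) : ℤ) : ℝ) := by exact_mod_cast h0
    have h1r : ((i % (K : ℤ) : ℤ) : ℝ) + 1 ≤ K := by
      exact_mod_cast (show i % (K : ℤ) + 1 ≤ K by omega)
    beta_reduce
    rw [key, s.iso]
    refine hd _ ⟨by positivity, ?_⟩ _ ⟨by positivity, ?_⟩ ?_
    · rw [div_le_one hKr]; linarith
    · rw [div_le_one hKr]; exact h1r
    · rw [Real.dist_eq, ← sub_div, sub_add_cancel_left, abs_div, abs_neg, abs_one,
        abs_of_pos hKr]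
      exact hn'
  · intro i
    beta_reduce
    rw [Int.add_emod_right, Int.add_ediv_of_dvd_right (dvd_refl _), Int.ediv_self hKz.ne',
      add_comm, zpow_one_add, mul_smul]

end ExAux

theorem sEx (hp : SPhi) (hps : SPS) : SEx := by
  intro G X _ _ _ _ ε s τ hτ
  obtain ⟨w, hw⟩ := hτ.2.2.2
  have hw1 : w ≠ 1 := fun e => hw (e ▸ hτ.one)
  obtain ⟨K, x, hK, hx⟩ := ExAux.chain s w
  have hex : ∃ (β : G) (y : ℤ → X), OnLine (β * w * β⁻¹) K y := by
    by_contra hc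
    obtain ⟨θ, hθ, h⟩ := hps G X ε s w K univ hK hw1 isClosed_univ (fun _ _ _ => mem_univ _)
      (fun β y _ hy => hc ⟨β, y, hy⟩)
    have hit : ∀ N : ℕ, Ch ε w K (Phi^[N] x) ∧ En K (Phi^[N] x) + N * θ ≤ En K x := by
      intro N
      induction N with
      | zero => exact ⟨hx, by simp⟩
      | succ N ih =>
        rw [Function.iterate_succ_apply']
        refine ⟨((hp G X ε s).2.1 w K _ ih.1).1, ?_⟩
        have := h _ (mem_univ _) ih.1
        push_cast
        linarith [ih.2]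
    obtain ⟨N, hN⟩ := exists_nat_gt (En K x / θ)
    rw [div_lt_iff₀ hθ] at hN
    linarith [(hit N).2, En.nonneg K (Phi^[N] x)]
  obtain ⟨β, y, c, a, ha, h1, h2, -, -⟩ := hex
  refine ⟨c, β * w * β⁻¹, K * a, OnLine.cl hK ha h1 h2, mul_pos (Nat.cast_pos.2 hK) ha, h2, ?_⟩
  rw [hτ.2.1]
  exact hw

end Vale.Agent.P216
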