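import Vale.Agent.P216.Stm

open Set Metric

namespace Vale.Agent.P216

namespace FinAux

variable {G X : Type} [Group G] [MetricSpace X] [MulAction G X]

omit [MetricSpace X] in
theorem red {f : ℝ → X} {v : G} {L : ℝ} (hL : 0 < L) (h : Tr f v L) {x : X} (hx : x ∈ sat G f) :
    ∃ (γ : G) (s : ℝ), s ∈ Icc 0 L ∧ x = γ • f s := by
  obtain ⟨γ, s, rfl⟩ := hx
  refine ⟨γ * v ^ ⌊s / L⌋, s - ⌊s / L⌋ * L, ⟨?_, ?_⟩, ?_⟩
  · have := Int.floor_le (s / L)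
    rw [le_div_iff₀ hL] at this
    linarith
  · have := Int.lt_floor_add_one (s / L)
    rw [div_lt_iff₀ hL] at this
    linarith
  · rw [mul_smul, ← h.zpow ⌊s / L⌋ (s - ⌊s / L⌋ * L), sub_add_cancel]

theorem two {ε r : ℝ} (st : St G X ε) {c f : ℝ → X} (hc : Continuous c) (hf : Continuous f)
    {v : G} {L : ℝ} (hL : 0 < L) (h : Tr f v L) (hr : 0 < r) (hs : ∀ t, c t ∈ sat G f) :
    ∃ (γ : G) (t₁ t₂ s₁ s₂ : ℝ), t₁ < t₂ ∧ t₂ - t₁ ≤ r ∧ |s₁ - s₂| ≤ r ∧ c t₁ = γ • f s₁ ∧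
      c t₂ = γ • f s₂ := by
  choose γ s hs1 hs2 using fun t => red hL h (hs t)
  have hK : IsCompact (c '' Icc 0 r ∪ f '' Icc 0 L) :=
    (isCompact_Icc.image hc).union (isCompact_Icc.image hf)
  have hm : MapsTo (fun t => (γ t, ⌊s t / r⌋)) (Icc 0 r)
      ({g : G | ∃ x ∈ c '' Icc 0 r ∪ f '' Icc 0 L, g • x ∈ c '' Icc 0 r ∪ f '' Icc 0 L} ×ˢ
        Icc (0 : ℤ) ⌊L / r⌋) := fun t ht =>
    ⟨⟨f (s t), Or.inr ⟨_, hs1 t, rfl⟩, Or.inl ⟨t, ht, hs2 t⟩⟩,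
      Int.floor_nonneg.2 (div_nonneg (hs1 t).1 hr.le),
      Int.floor_le_floor (div_le_div_of_nonneg_right (hs1 t).2 hr.le)⟩
  obtain ⟨t₁, h1, t₂, h2, hlt, e⟩ := (Icc_infinite hr).exists_lt_map_eq_of_mapsTo hm
    ((st.fin _ hK).prod (finite_Icc _ _))
  have e1 : γ t₁ = γ t₂ := congrArg Prod.fst e
  have e2 : ⌊s t₁ / r⌋ = ⌊s t₂ / r⌋ := congrArg Prod.snd e
  have e3 := Int.abs_sub_lt_one_of_floor_eq_floor e2
  rw [← sub_div, abs_div, abs_of_pos hr, div_lt_one hr] at e3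
  exact ⟨γ t₁, t₁, t₂, s t₁, s t₂, hlt, by linarith [h1.1, h2.2], e3.le, hs2 t₁, e1 ▸ hs2 t₂⟩

theorem key (hu : SUC) {ε : ℝ} (st : St G X ε) {c f : ℝ → X} (hc : Cl G c) (hf : Cl G f)
    (hs : ∀ t, c t ∈ sat G f) :
    (∃ (γ : G) (b : ℝ), ∀ t, c t = γ • f (t + b)) ∨
      ∃ (γ : G) (b : ℝ), ∀ t, c t = γ • f (-(t + b)) := by
  have cc := hc.continuous
  have cf := hf.continuous
  obtain ⟨⟨η₁, p1, l1⟩, -⟩ := hc
  obtain ⟨⟨η₂, p2, l2⟩, v, L, hL, hv⟩ := hf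
  have hr : 0 < min (min η₁ η₂) ε := lt_min (lt_min p1 p2) st.pos
  have m1 : Line (min (min η₁ η₂) ε) c := l1.mono ((min_le_left _ _).trans (min_le_left _ _))
  have m2 : Line (min (min η₁ η₂) ε) f := l2.mono ((min_le_left _ _).trans (min_le_right _ _))
  have m3 : min (min η₁ η₂) ε ≤ ε := min_le_right _ _
  generalize min (min η₁ η₂) ε = r at hr m1 m2 m3
  obtain ⟨γ, t₁, t₂, s₁, s₂, hlt, h1, h2, e1, e2⟩ := two st cc cf hL hv hr hs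
  have ha : |t₁ - t₂| = t₂ - t₁ := by rw [abs_sub_comm, abs_of_pos (sub_pos.2 hlt)]
  have hd : |s₁ - s₂| = t₂ - t₁ := by
    rw [← m2 s₁ s₂ h2, ← st.iso γ, ← e1, ← e2, m1 t₁ t₂ (ha.le.trans h1), ha]
  rcases (abs_eq (sub_pos.2 hlt).le).1 hd with h | h
  · have e := hu X ε st.toLoc (fun t => c (t + t₁)) (fun t => γ • f (-(t + -s₁))) r (t₂ - t₁)
      (m1.shift t₁) (st.line (m2.rev.shift (-s₁)) γ) (sub_pos.2 hlt) h1 (h1.trans m3)
      (by simpa using e1)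
      (by
        show c (t₂ - t₁ + t₁) = γ • f (-(t₂ - t₁ + -s₁))
        rw [sub_add_cancel, show -(t₂ - t₁ + -s₁) = s₂ by linarith, e2])
    refine Or.inr ⟨γ, -s₁ - t₁, fun t => ?_⟩
    have e' : c (t - t₁ + t₁) = γ • f (-(t - t₁ + -s₁)) := congrFun e (t - t₁)
    rw [sub_add_cancel, show t - t₁ + -s₁ = t + (-s₁ - t₁) by ring] at e'
    exact e'
  · have e := hu X ε st.toLoc (fun t => c (t + t₁)) (fun t => γ • f (t + s₁)) r (t₂ - t₁)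
      (m1.shift t₁) (st.line (m2.shift s₁) γ) (sub_pos.2 hlt) h1 (h1.trans m3)
      (by simpa using e1)
      (by
        show c (t₂ - t₁ + t₁) = γ • f (t₂ - t₁ + s₁)
        rw [sub_add_cancel, show t₂ - t₁ + s₁ = s₂ by linarith, e2])
    refine Or.inl ⟨γ, s₁ - t₁, fun t => ?_⟩
    have e' : c (t - t₁ + t₁) = γ • f (t - t₁ + s₁) := congrFun e (t - t₁)
    rw [sub_add_cancel, show t - t₁ + s₁ = t + (s₁ - t₁) by ring] at e'
    exact e'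

end FinAux

theorem sFin (hu : SUC) : SFin := by
  intro G X _ _ _ ε st hfin
  have hex : ∀ S : {S | ∃ c : ℝ → X, Cl G c ∧ S = sat G c}, ∃ c : ℝ → X,
      Cl G c ∧ S.1 = sat G c := fun S => S.2
  choose rep h1 h2 using hex
  have := hfin.to_subtype
  refine ⟨range rep ∪ range fun S t => rep S (-t), (finite_range _).union (finite_range _),
    ?_, fun c hc => ?_⟩
  · rintro f (⟨S, rfl⟩ | ⟨S, rfl⟩)
    · exact h1 S
    · exact (h1 S).rev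
  · have hs : ∀ t, c t ∈ sat G (rep ⟨sat G c, c, hc, rfl⟩) := fun t => by
      rw [← h2]
      exact ⟨1, t, (one_smul G _).symm⟩
    rcases FinAux.key hu st hc (h1 _) hs with h | h
    · exact ⟨_, Or.inl ⟨_, rfl⟩, h⟩
    · exact ⟨_, Or.inr ⟨⟨sat G c, c, hc, rfl⟩, rfl⟩, h⟩

end Vale.Agent.P216
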