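import Vale.Agent.P216.Stm

/-! The shortening flow brings chains close to closed lines in uniform time. -/

open Set Metric

namespace Vale.Agent.P216

namespace FlowAux

variable {Y : Type}

/-- A property kept by `f` holds along the orbit. -/
theorem keep {f : Y → Y} {P : Y → Prop} (h : ∀ x, P x → P (f x)) {x : Y} (hx : P x) (n : ℕ) :
    P (f^[n] x) := by
  induction n with
  | zero => simpa using hx
  | succ n ih => rw [Function.iterate_succ_apply']; exact h _ ih

theorem anti {f : Y → Y} {P : Y → Prop} {e : Y → ℝ} (h : ∀ x, P x → P (f x) ∧ e (f x) ≤ e x)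
    {x : Y} (hx : P x) {m n : ℕ} (hmn : m ≤ n) : e (f^[n] x) ≤ e (f^[m] x) := by
  induction n, hmn using Nat.le_induction with
  | base => exact le_rfl
  | succ n _ ih =>
    rw [Function.iterate_succ_apply']
    exact (h _ (keep (fun y hy => (h y hy).1) hx n)).2.trans ih

theorem drop {f : Y → Y} {P : Y → Prop} {e : Y → ℝ} {B : Set Y} {θ : ℝ}
    (h : ∀ x, P x → P (f x)) (hθ : ∀ x ∈ B, P x → e (f x) + θ ≤ e x) {x : Y} (hx : P x)
    (N : ℕ) (hB : ∀ j < N, f^[j] x ∈ B) : e (f^[N] x) + N * θ ≤ e x := by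
  induction N with
  | zero => simp
  | succ N ih =>
    have h1 := ih fun j hj => hB j (Nat.lt_succ_of_lt hj)
    have h2 := hθ _ (hB N (Nat.lt_succ_self N)) (keep h hx N)
    rw [Function.iterate_succ_apply', Nat.cast_succ]
    linarith

end FlowAux

open FlowAux in
theorem sFlow (hp : SPhi) (hps : SPS) : SFlow := by
  intro G X _ _ _ ε s w K a E₀ δ hK hw hδ gap
  obtain ⟨-, h2, -, -, hc, hi, -⟩ := hp G X ε s
  have hs := hps G X ε s w K
  have hst : ∀ x : ℤ → X, Ch ε w K x → Ch ε w K (Phi x) ∧ En K (Phi x) ≤ En K x := h2 w K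
  have hk : ∀ x : ℤ → X, Ch ε w K x → Ch ε w K (Phi x) := fun x hx => (hst x hx).1
  -- consequences of the gap hypothesis for chains on a line
  have onl : ∀ (γ : G) (y : ℤ → X), OnLine (γ * w * γ⁻¹) K y →
      K * a ^ 2 ≤ En K y ∧ (En K y ≤ E₀ → En K y = K * a ^ 2 ∧
        ∃ c : ℝ → X, Cl G c ∧ y 0 = c 0 ∧ y 1 = c a) := by
    rintro γ y ⟨c, a', ha', hl, ht, hy, he⟩
    have hcl : Cl G c := OnLine.cl hK ha' hl ht
    rcases gap γ c a' ha' hcl ht with rfl | ⟨g1, g2⟩
    · refine ⟨he.ge, fun _ => ⟨he, c, hcl, ?_, ?_⟩⟩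
      · simpa using hy 0
      · simpa using hy 1
    · exact ⟨he ▸ g1, fun h => absurd (he ▸ h) (not_le.2 g2)⟩
  -- (1) lower bound of the energy
  have low : ∀ x : ℤ → X, Ch ε w K x → K * a ^ 2 ≤ En K x := by
    intro x hx
    by_contra hlt
    rw [not_le] at hlt
    obtain ⟨θ, hθ, hd⟩ := hs {y | En K y ≤ En K x} hK hw (isClosed_le (hc K) continuous_const)
      (fun γ y hy => by simpa only [mem_setOf_eq, hi] using hy)
      (fun γ y hy ho => by
        have := (onl γ y ho).1
        rw [mem_setOf_eq] at hy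
        linarith)
    obtain ⟨N, hN⟩ := exists_nat_gt (En K x / θ)
    have h3 := drop (e := En K) hk hd hx N fun j _ => by
      simpa using anti (e := En K) hst hx (Nat.zero_le j)
    rw [div_lt_iff₀ hθ] at hN
    linarith [En.nonneg K (Phi^[N] x)]
  -- (2) the set far from closed lines
  obtain ⟨θ₁, hθ₁, hd₁⟩ := hs {y | En K y ≤ E₀ ∧ ∀ c : ℝ → X, Cl G c →
      δ ≤ dist (y 0) (c 0) ∨ δ ≤ dist (y 1) (c a)} hK hw
    (by
      refine (isClosed_le (hc K) continuous_const).inter ?_
      show IsClosed {y : ℤ → X | ∀ c : ℝ → X, Cl G c →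
        δ ≤ dist (y 0) (c 0) ∨ δ ≤ dist (y 1) (c a)}
      simp only [setOf_forall]
      refine isClosed_iInter fun c => isClosed_iInter fun _ => IsClosed.union ?_ ?_
      · exact isClosed_le continuous_const ((continuous_apply 0).dist continuous_const)
      · exact isClosed_le continuous_const ((continuous_apply 1).dist continuous_const))
    (by
      rintro γ y ⟨hy1, hy2⟩
      refine ⟨by rwa [hi], fun c hcl => ?_⟩
      have := hy2 _ (s.cl hcl γ⁻¹)
      simp only [Pi.smul_apply]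
      rwa [← s.iso γ, ← s.iso γ (y 1), smul_inv_smul, smul_inv_smul] at this)
    (by
      rintro γ y ⟨hy1, hy2⟩ ho
      obtain ⟨-, c, hcl, e0, e1⟩ := (onl γ y ho).2 hy1
      have := hy2 c hcl
      rw [e0, e1, dist_self, dist_self, or_self] at this
      exact absurd this (not_le.2 hδ))
  -- (3) the energy band
  obtain ⟨θ₂, hθ₂, hd₂⟩ := hs {y | K * a ^ 2 + θ₁ / 2 ≤ En K y ∧ En K y ≤ E₀} hK hw
    ((isClosed_le continuous_const (hc K)).inter (isClosed_le (hc K) continuous_const))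
    (fun γ y hy => by simpa only [mem_setOf_eq, hi] using hy)
    (by
      rintro γ y ⟨hy1, hy2⟩ ho
      have := ((onl γ y ho).2 hy2).1
      linarith)
  obtain ⟨N, hN⟩ := exists_nat_gt (E₀ / θ₂)
  rw [div_lt_iff₀ hθ₂] at hN
  refine ⟨N, fun x hx hE => ?_⟩
  have hle : ∀ j, En K (Phi^[j] x) ≤ E₀ := fun j =>
    le_trans (by simpa using anti (e := En K) hst hx (Nat.zero_le j)) hE
  have hsm : En K (Phi^[N] x) < K * a ^ 2 + θ₁ / 2 := by
    by_contra hge
    rw [not_lt] at hge
    have h3 := drop (e := En K) hk hd₂ hx N fun j hj =>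
      ⟨hge.trans (anti (e := En K) hst hx hj.le), hle j⟩
    linarith [En.nonneg K (Phi^[N] x)]
  by_contra hno
  have hN' : Ch ε w K (Phi^[N] x) := keep hk hx N
  have h4 := hd₁ (Phi^[N] x) ⟨hle N, fun c hcl => by
    by_contra hcon
    rw [not_or, not_le, not_le] at hcon
    exact hno ⟨c, hcl, hcon.1, hcon.2⟩⟩ hN'
  have h5 := low _ (hk _ hN')
  linarith

end Vale.Agent.P216
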