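import Vale.Agent.P216.Stm

/-! The front construction: a path of periodic chains of almost minimal energy. -/

open Set Metric

namespace Vale.Agent.P216

namespace FrontAux

variable {G X : Type} [Group G] [MulAction G X]

noncomputable def Q (u : G) (F : ℝ × ℝ → X) (k : ℕ) (a : ℝ) (i : ℤ) : X :=
  u ^ (i / k) • F (a, ((i % k : ℤ) : ℝ) / k)

theorem Q_succ {u : G} {F : ℝ × ℝ → X} {k : ℕ} (hk : 0 < k) (hF : ∀ s, F (s, 1) = u • F (s, 0))
    (a : ℝ) (i : ℤ) : Q u F k a (i + 1) = u ^ (i / k) • F (a, (((i % k : ℤ) : ℝ) + 1) / k) := by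
  have hk' : (0 : ℤ) < k := by exact_mod_cast hk
  have h0 := Int.emod_nonneg i hk'.ne'
  have h1 := Int.emod_lt_of_pos i hk'
  have h2 := Int.emod_add_mul_ediv i k
  by_cases h : i % k + 1 < k
  · obtain ⟨e1, e2⟩ : (i + 1) / k = i / k ∧ (i + 1) % k = i % k + 1 :=
      (Int.ediv_emod_unique hk').2 ⟨by linarith, by linarith, h⟩
    rw [Q, e1, e2, Int.cast_add, Int.cast_one]
  · have h3 : i % k + 1 = k := by omega
    obtain ⟨e1, e2⟩ : (i + 1) / k = i / k + 1 ∧ (i + 1) % k = 0 :=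
      (Int.ediv_emod_unique hk').2 ⟨by linarith, le_rfl, hk'⟩
    have h4 : ((i % k : ℤ) : ℝ) + 1 = k := by exact_mod_cast h3
    have h5 : (k : ℝ) ≠ 0 := by exact_mod_cast hk.ne'
    rw [Q, e1, e2, h4, div_self h5, hF, Int.cast_zero, zero_div, zpow_add_one, mul_smul]

theorem Q_per {u : G} {F : ℝ × ℝ → X} {k : ℕ} (hk : 0 < k) (n : ℕ) (a : ℝ) (i : ℤ) :
    Q u F k a (i + (n * k : ℕ)) = u ^ n • Q u F k a i := by
  have hk' : (k : ℤ) ≠ 0 := by exact_mod_cast hk.ne'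
  rw [Q, Q, Nat.cast_mul, Int.add_mul_ediv_right _ _ hk', Int.add_mul_emod_self_right, add_comm,
    zpow_add, zpow_natCast, mul_smul]

theorem r_mem {k : ℕ} (hk : 0 < k) (i : ℤ) :
    ((i % k : ℤ) : ℝ) / k ∈ Icc (0 : ℝ) 1 ∧ (((i % k : ℤ) : ℝ) + 1) / k ∈ Icc (0 : ℝ) 1 := by
  have hk' : (0 : ℤ) < k := by exact_mod_cast hk
  have hk2 : (0 : ℝ) < k := by exact_mod_cast hk
  have h0 : (0 : ℝ) ≤ ((i % k : ℤ) : ℝ) := by exact_mod_cast Int.emod_nonneg i hk'.ne'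
  have h1 : ((i % k : ℤ) : ℝ) + 1 ≤ k := by exact_mod_cast Int.emod_lt_of_pos i hk'
  exact ⟨⟨by positivity, (div_le_one hk2).2 (by linarith)⟩, by positivity, (div_le_one hk2).2 h1⟩

theorem Q_line {u : G} {F : ℝ × ℝ → X} {k : ℕ} (hk : 0 < k) {c : ℝ → X} {L a : ℝ}
    (hc : Tr c u L) (hF : ∀ t ∈ Icc (0 : ℝ) 1, F (a, t) = c (t * L)) (i : ℤ) :
    Q u F k a i = c (i * (L / k)) := by
  have h5 : (k : ℝ) ≠ 0 := by exact_mod_cast hk.ne'
  have h2 : ((i % k : ℤ) : ℝ) + k * ((i / k : ℤ) : ℝ) = i := by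
    exact_mod_cast Int.emod_add_mul_ediv i k
  rw [Q, hF _ (r_mem hk i).1, ← hc.zpow (i / k)]
  refine congrArg c ?_
  rw [← h2]
  field_simp

end FrontAux

open FrontAux in
theorem sFront (hp : SPsi) : SFront := by
  intro G X _ _ _ ε s u L η c c' F hL hη hηε hc hc' tc tc' hF hb hu
  obtain ⟨d, hd, hU⟩ := Metric.uniformContinuousOn_iff.1
    ((isCompact_Icc.prod isCompact_Icc :
      IsCompact (Icc (0 : ℝ) 1 ×ˢ Icc (0 : ℝ) 1)).uniformContinuousOn_of_continuous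
      hF.continuousOn) ε s.pos
  obtain ⟨k, hk⟩ := exists_nat_gt (max (1 / d) (L / η))
  have hk1 : 1 / d < k := (le_max_left _ _).trans_lt hk
  have hk2 : L / η < k := (le_max_right _ _).trans_lt hk
  have hk0 : (0 : ℝ) < k := (one_div_pos.2 hd).trans hk1
  have hkn : 0 < k := by exact_mod_cast hk0
  have hk3 : 1 / (k : ℝ) < d := by
    rw [div_lt_iff₀ hd] at hk1
    rw [div_lt_iff₀ hk0]
    linarith
  have hk4 : L / k ≤ η := by
    rw [div_lt_iff₀ hη] at hk2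
    rw [div_le_iff₀ hk0]
    linarith
  have hLk : 0 < L / k := div_pos hL hk0
  refine ⟨k, (2 * k + 8) * ε ^ 2, hkn, hk4, fun n hn => ?_⟩
  obtain ⟨ψ, p1, p2, p3, p4, p5, p6, p7⟩ := hp k n hkn hn
  have l0 := Q_line hkn tc fun t ht => (hb t ht).1
  have l1 := Q_line hkn tc' fun t ht => (hb t ht).2
  have step : ∀ σ i, dist (Q u F k (ψ σ i) i) (Q u F k (ψ σ (i + 1)) (i + 1)) ≤ ε := by
    intro σ i
    rw [Q_succ hkn hu, Q, s.iso]
    refine (hU _ ⟨p2 σ i, (r_mem hkn i).1⟩ _ ⟨p2 σ (i + 1), (r_mem hkn i).2⟩ ?_).le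
    rw [Prod.dist_eq, Real.dist_eq, Real.dist_eq]
    refine max_lt ?_ ?_
    · rw [abs_sub_comm]
      exact (p3 σ i).trans_lt hk3
    · rw [abs_sub_comm, ← sub_div, add_sub_cancel_left, abs_of_pos (one_div_pos.2 hk0)]
      exact hk3
  have ln : ∀ e : ℝ → X, Line η e → ∀ i : ℤ,
      dist (e (i * (L / k))) (e ((i + 1 : ℤ) * (L / k))) = L / k := by
    intro e he i
    have h1 : |(i : ℝ) * (L / k) - ((i + 1 : ℤ) : ℝ) * (L / k)| = L / k := by
      rw [abs_sub_comm, Int.cast_add, Int.cast_one, add_mul, add_sub_cancel_left, one_mul,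
        abs_of_pos hLk]
    rw [he _ _ (h1.le.trans hk4), h1]
  refine ⟨fun σ i => Q u F k (ψ σ i) i, n + 1, ?_, by positivity, ?_, ?_,
    fun σ => ⟨⟨step σ, ?_⟩, ?_⟩⟩
  · exact continuous_pi fun i => (s.cont _).comp (hF.comp ((p1 i).prodMk continuous_const))
  · funext i
    show Q u F k (ψ 0 i) i = _
    rw [p5, l0]
  · funext i
    show Q u F k (ψ (n + 1) i) i = _
    rw [p6, l1]
  · intro i
    show Q u F k (ψ σ (i + (n * k : ℕ))) _ = _
    rw [p4, Q_per hkn]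
  · obtain ⟨D, hD, hD'⟩ := p7 σ
    have h1 : ∀ i ∈ Finset.range (n * k),
        dist (Q u F k (ψ σ i) i) (Q u F k (ψ σ (i + 1)) (i + 1)) ^ 2 ≤
          (L / k) ^ 2 + if i ∈ D then ε ^ 2 else 0 := by
      intro i hi
      split_ifs with h
      · have := pow_le_pow_left₀ dist_nonneg (step σ i) 2
        linarith [sq_nonneg (L / k)]
      · rcases hD' i (Finset.mem_range.1 hi) h with ⟨a1, a2⟩ | ⟨a1, a2⟩
        · rw [a1, a2, l0, l0, ln c hc, add_zero]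
        · rw [a1, a2, l1, l1, ln c' hc', add_zero]
    refine (Finset.sum_le_sum h1).trans ?_
    rw [Finset.sum_add_distrib, Finset.sum_ite_mem, Finset.sum_const, Finset.sum_const,
      Finset.card_range, nsmul_eq_mul, nsmul_eq_mul]
    have h2 : ((Finset.range (n * k) ∩ D).card : ℝ) ≤ 2 * k + 8 := by
      exact_mod_cast (Finset.card_le_card Finset.inter_subset_right).trans hD
    linarith [mul_le_mul_of_nonneg_right h2 (sq_nonneg ε)]

end Vale.Agent.P216
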