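import Vale.Agent.P216.Stm

open Set Filter Topology

namespace Vale.Agent.P216

namespace GapAux

variable {G X : Type} [Group G] [MulAction G X]

theorem key {τ : G → ℝ} (hτ : Gauge τ) {f c : ℝ → X} {g u γ : G} {L₀ L b : ℝ}
    (hf : Prim f g L₀) (hc : ∀ t, c t = γ • f (t + b)) (hL : 0 < L) (hu : Tr c u L) :
    τ u = τ g / L₀ * L := by
  have h1 : Tr f (γ⁻¹ * u * γ⁻¹⁻¹) L := fun t => by
    have e := hu (t - b)
    rw [hc, hc, sub_add_cancel, show t - b + L + b = t + L by ring] at e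
    rw [inv_inv, mul_smul, mul_smul, ← e, inv_smul_smul]
  obtain ⟨n, h2, h3⟩ := hf.2.2 _ _ h1
  have h4 : (0 : ℝ) < n := by
    rw [h2] at hL
    exact (mul_pos_iff_of_pos_right hf.1).1 hL
  rw [← hτ.2.1 u γ⁻¹, h3, hτ.2.2.1, abs_of_pos h4, h2]
  field_simp [hf.1.ne']

theorem ev {r m : ℝ} (h : r ≤ m) : ∀ᶠ κ in 𝓝[>] (0 : ℝ), r = m ∨ (1 + κ) * r ≤ m := by
  rcases h.eq_or_lt with h | h
  · exact Eventually.of_forall fun _ => Or.inl h
  · have hc : Continuous fun κ : ℝ => (1 + κ) * r := by fun_prop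
    have ht : Tendsto (fun κ : ℝ => (1 + κ) * r) (𝓝 0) (𝓝 r) := by
      simpa using hc.tendsto 0
    exact ((ht.eventually_lt_const h).filter_mono nhdsWithin_le_nhds).mono fun _ h => Or.inr h.le

end GapAux

open GapAux in
theorem sGap (hc : SCyc) : SGap := by
  intro G X _ _ _ ε s τ hτ hF h0
  obtain ⟨F, hfin, hcl, hF⟩ := hF
  choose! g L₀ hp using fun f (hf : f ∈ F) => hc G X ε s f (hcl f hf)
  have hk : ∀ (c : ℝ → X) (u : G) (L : ℝ), Cl G c → 0 < L → Tr c u L →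
      ∃ f ∈ F, τ u = τ (g f) / L₀ f * L := fun c u L h1 h2 h3 => by
    obtain ⟨f, hf, γ, b, e⟩ := hF c h1
    exact ⟨f, hf, key hτ (hp f hf) e h2 h3⟩
  obtain ⟨c, u, L, h1, h2, h3, h4⟩ := h0
  obtain ⟨f₁, hf₁, e₁⟩ := hk c u L h1 h2 h3
  obtain ⟨c₀, hc₀, hmax⟩ := exists_max_image F (fun f => τ (g f) / L₀ f) hfin ⟨f₁, hf₁⟩
  have hev : ∀ᶠ κ in 𝓝[>] (0 : ℝ), ∀ f ∈ F, τ (g f) / L₀ f = τ (g c₀) / L₀ c₀ ∨
      (1 + κ) * (τ (g f) / L₀ f) ≤ τ (g c₀) / L₀ c₀ :=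
    (hfin.eventually_all).2 fun f hf => ev (hmax f hf)
  obtain ⟨κ, hκ, hκ0⟩ := (hev.and self_mem_nhdsWithin).exists
  have hL₀ := (hp c₀ hc₀).1
  refine ⟨c₀, g c₀, L₀ c₀, κ, hcl c₀ hc₀, hp c₀ hc₀, fun h => h4 ?_, hκ0, fun c u L a1 a2 a3 => ?_⟩
  · have a := hmax f₁ hf₁
    simp only [h, zero_div] at a
    have b : 0 ≤ τ (g f₁) / L₀ f₁ := div_nonneg (hτ.1 _) (hp f₁ hf₁).1.le
    rw [e₁, le_antisymm a b, zero_mul]
  · obtain ⟨f, hf, e⟩ := hk c u L a1 a2 a3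
    have e0 : L * τ (g c₀) = L₀ c₀ * L * (τ (g c₀) / L₀ c₀) := by field_simp
    rw [e, e0]
    rcases hκ f hf with h | h
    · left
      rw [h]
      ring
    · right
      have := mul_le_mul_of_nonneg_left h (mul_pos hL₀ a2).le
      linarith

end Vale.Agent.P216
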