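import Vale.Agent.P216.Stm

/-! Groups with large centralisers. -/

namespace Vale.Agent.P216

namespace GrpAux

variable {G : Type} [Group G]

theorem gen {C : Subgroup G} (hC : IsCyclic C) {b : G} (hb : b ∈ C)
    (h : ∀ n : ℤ, n ≠ 0 → b ^ n ≠ 1) :
    ∃ r : G, (∀ n : ℤ, n ≠ 0 → r ^ n ≠ 1) ∧ ∀ x ∈ C, ∃ i : ℤ, x = r ^ i := by
  obtain ⟨g, hg⟩ := IsCyclic.exists_generator (α := C)
  have h1 : ∀ x ∈ C, ∃ i : ℤ, x = g.1 ^ i := fun x hx => by
    obtain ⟨i, hi⟩ := Subgroup.mem_zpowers_iff.1 (hg ⟨x, hx⟩)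
    exact ⟨i, by simpa using (congrArg Subtype.val hi).symm⟩
  refine ⟨g.1, fun n hn e => h n hn ?_, h1⟩
  obtain ⟨i, rfl⟩ := h1 b hb
  rw [← zpow_mul, mul_comm, zpow_mul, e, one_zpow]

theorem comm_ne {A : Type} [Group A] [Nontrivial A] (a : A) : ∃ p : A, p ≠ 1 ∧ p * a = a * p := by
  by_cases h : a = 1
  · obtain ⟨p, hp⟩ := exists_ne (1 : A)
    exact ⟨p, hp, by simp [h]⟩
  · exact ⟨a, h, rfl⟩

theorem fin_cent {z : G} (h : {y | IsConj z y}.Finite) :
    (Subgroup.centralizer ({z} : Set G)).FiniteIndex := by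
  have := h.to_subtype
  have hs : Function.Surjective fun y : {y | IsConj z y} =>
      (((isConj_iff.1 y.2).choose : G) : G ⧸ Subgroup.centralizer ({z} : Set G)) := by
    intro q
    obtain ⟨g, rfl⟩ := QuotientGroup.mk_surjective q
    have hy : IsConj z (g * z * g⁻¹) := isConj_iff.2 ⟨g, rfl⟩
    refine ⟨⟨_, hy⟩, QuotientGroup.eq.2 ?_⟩
    have h1 := (isConj_iff.1 hy).choose_spec
    generalize (isConj_iff.1 hy).choose = c at h1 ⊢
    rw [Subgroup.mem_centralizer_singleton_iff]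
    calc c⁻¹ * g * z = c⁻¹ * (g * z * g⁻¹) * g := by group
      _ = z * (c⁻¹ * g) := by rw [← h1]; group
  have := Finite.of_surjective _ hs
  exact Subgroup.finiteIndex_of_finite_quotient

end GrpAux

open GrpAux

theorem sProd : SProd := by
  rintro G _ τ hτ ⟨A, B, _, _, _, _, ⟨e⟩⟩ a ha
  refine ⟨1, one_pos, fun hc => ?_⟩
  rw [pow_one] at hc
  obtain ⟨r, hr, hx⟩ := gen hc (Subgroup.mem_centralizer_singleton_iff.2 rfl)
    fun n hn => hτ.zpow_ne ha hn
  obtain ⟨p, hp, hpa⟩ := comm_ne (e a).1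
  obtain ⟨q, hq, hqa⟩ := comm_ne (e a).2
  obtain ⟨i, hi⟩ := hx (e.symm (p, 1)) (Subgroup.mem_centralizer_singleton_iff.2 (e.injective (by
    simp only [map_mul, e.apply_symm_apply]
    exact Prod.ext hpa (by simp))))
  obtain ⟨j, hj⟩ := hx (e.symm (1, q)) (Subgroup.mem_centralizer_singleton_iff.2 (e.injective (by
    simp only [map_mul, e.apply_symm_apply]
    exact Prod.ext (by simp) hqa)))
  rw [e.symm_apply_eq] at hi hj
  have hi0 : i ≠ 0 := by
    rintro rfl
    exact hp (by simpa using congrArg Prod.fst hi)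
  have hj0 : j ≠ 0 := by
    rintro rfl
    exact hq (by simpa using congrArg Prod.snd hj)
  refine hr (i * j) (mul_ne_zero hi0 hj0) (e.injective (Prod.ext ?_ ?_))
  · rw [mul_comm, zpow_mul, map_zpow, ← hj]
    simp
  · rw [zpow_mul, map_zpow, ← hi]
    simp

theorem sFC : SFC := by
  rintro G _ τ hτ ⟨⟨z, hz, hf⟩, hH⟩ a ha
  by_contra hn
  have hc : ∀ m : ℕ, 0 < m → IsCyclic (Subgroup.centralizer ({a ^ m} : Set G)) := fun m hm => by
    by_contra h
    exact hn ⟨m, hm, h⟩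
  have hfi := fin_cent hf
  obtain ⟨m, hm, -, hmz⟩ := Subgroup.exists_pow_mem_of_index_ne_zero hfi.index_ne_zero a
  rw [Subgroup.mem_centralizer_singleton_iff] at hmz
  obtain ⟨r, -, hx⟩ := gen (hc m hm) (Subgroup.mem_centralizer_singleton_iff.2 rfl)
    fun n h0 => by
      rw [← zpow_natCast, ← zpow_mul]
      exact hτ.zpow_ne ha (mul_ne_zero (Int.natCast_ne_zero.2 hm.ne') h0)
  obtain ⟨i, hi⟩ := hx _ (Subgroup.mem_centralizer_singleton_iff.2 rfl)
  obtain ⟨j, hj⟩ := hx z (Subgroup.mem_centralizer_singleton_iff.2 hmz.symm)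
  have hj0 : j ≠ 0 := by
    rintro rfl
    exact hz (by simpa using hj)
  have hle : Subgroup.centralizer ({z} : Set G) ≤
      Subgroup.centralizer ({a ^ (m * j.natAbs)} : Set G) := by
    intro h hh
    rw [Subgroup.mem_centralizer_singleton_iff] at hh ⊢
    have h1 : Commute h ((a ^ m) ^ j) := by
      rw [hi, ← zpow_mul, mul_comm, zpow_mul, ← hj]
      exact Commute.zpow_right hh i
    rw [pow_mul, ← zpow_natCast]
    rcases Int.natAbs_eq j with e | e
    · rw [← e]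
      exact h1
    · rw [e, zpow_neg] at h1
      exact Commute.inv_right_iff.1 h1
  exact hH _ (hc _ (Nat.mul_pos hm (Int.natAbs_pos.2 hj0))) (Subgroup.finiteIndex_of_le hle)

end Vale.Agent.P216
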