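import Vale.Agent.P216.Stm

/-! Free homotopies between curves closed up by the same deck transformation. -/

open Set Metric

namespace Vale.Agent.P216

namespace HomAux

theorem cat {X : Type} [TopologicalSpace X] (f : X → X) (e c' : ℝ → X) (hf : Continuous f)
    (he : Continuous e) (hc : Continuous c') (h0 : e 1 = c' 0) (h1 : c' 1 = f (c' 0)) :
    ∃ D : ℝ → X, Continuous D ∧ (∀ s ≤ 1, D (s - 1) = e s) ∧ (∀ s ≤ 1, D (2 - s) = f (e s)) ∧
      ∀ t ∈ Icc (0 : ℝ) 1, D t = c' t := by
  refine ⟨fun t => if t ≤ 0 then e (1 + t) else if t ≤ 1 then c' t else f (e (2 - t)),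
    ?_, fun s hs => ?_, fun s hs => ?_, fun t ht => ?_⟩
  · refine Continuous.if_le (he.comp (by fun_prop)) (Continuous.if_le hc
      (hf.comp (he.comp (by fun_prop))) continuous_id continuous_const ?_) continuous_id
      continuous_const ?_
    · rintro t rfl
      rw [show (2 : ℝ) - 1 = 1 by norm_num, h0, h1]
    · rintro t rfl
      rw [if_pos zero_le_one, add_zero, h0]
  · show (if s - 1 ≤ 0 then _ else _) = _
    rw [if_pos (by linarith), add_sub_cancel]
  · show (if 2 - s ≤ 0 then _ else _) = _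
    rw [if_neg (by linarith)]
    rcases hs.eq_or_lt with rfl | h
    · rw [show (2 : ℝ) - 1 = 1 by norm_num, if_pos le_rfl, h0, h1]
    · rw [if_neg (by linarith), sub_sub_cancel]
  · show (if t ≤ 0 then _ else _) = _
    rcases ht.1.eq_or_lt with rfl | h
    · rw [if_pos le_rfl, add_zero, h0]
    · rw [if_neg (by linarith), if_pos ht.2]

end HomAux

theorem sHom : SHom := by
  intro G X _ _ _ _ u c c' hu hc hc' h1 h1'
  obtain ⟨σ⟩ := PathConnectedSpace.joined (c 0) (c' 0)
  obtain ⟨D, hD, D1, D2, D3⟩ := HomAux.cat (fun x : X => u • x) σ.extend c' hu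
    σ.continuous_extend hc' σ.extend_one h1'
  let p0 : Path (c 0) (c 1) := ⟨⟨fun t => c t, by fun_prop⟩, rfl, rfl⟩
  let p1 : Path (c 0) (c 1) := ⟨⟨fun t => D (0 - 1 + t * 3), by fun_prop⟩, by
    show D (0 - 1 + (0 : ℝ) * 3) = _
    rw [zero_mul, add_zero, D1 0 zero_le_one, σ.extend_zero], by
    show D (0 - 1 + (1 : ℝ) * 3) = _
    rw [show (0 : ℝ) - 1 + 1 * 3 = 2 - 0 by norm_num, D2 0 zero_le_one, σ.extend_zero, h1]⟩
  obtain ⟨H⟩ := SimplyConnectedSpace.paths_homotopic p0 p1
  have hp : Continuous (projIcc (0 : ℝ) 1 zero_le_one) := continuous_projIcc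
  refine ⟨fun q => if q.1 ≤ 1 / 2 then
      H (projIcc 0 1 zero_le_one (2 * q.1), projIcc 0 1 zero_le_one q.2)
    else D (min (2 * q.1 - 1) 1 - 1 +
      projIcc (0 : ℝ) 1 zero_le_one q.2 * (3 - 2 * min (2 * q.1 - 1) 1)), ?_, fun t ht => ⟨?_, ?_⟩,
    fun s => ?_⟩
  · refine Continuous.if_le (H.continuous.comp (by fun_prop)) (hD.comp (by fun_prop))
      continuous_fst continuous_const ?_
    rintro ⟨s, t⟩ hs
    obtain rfl : s = 1 / 2 := hs
    have e1 : (2 : ℝ) * (1 / 2) = 1 := by norm_num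
    simp only [e1, projIcc_right, sub_self, min_eq_left (zero_le_one' ℝ), mul_zero, sub_zero]
    exact H.apply_one _
  · show (if (0 : ℝ) ≤ 1 / 2 then _ else _) = _
    rw [if_pos (by norm_num)]
    simp only [mul_zero, projIcc_left, projIcc_of_mem zero_le_one ht]
    exact H.apply_zero _
  · show (if (1 : ℝ) ≤ 1 / 2 then _ else _) = _
    rw [if_neg (by norm_num), ← D3 t ht]
    simp only [projIcc_of_mem zero_le_one ht]
    congr 1
    norm_num
  · show (if s ≤ 1 / 2 then _ else _) = u • if s ≤ 1 / 2 then _ else _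
    simp only [projIcc_left, projIcc_right]
    split_ifs
    · exact (H.target _).trans (h1.trans (congrArg _ (H.source _).symm))
    · rw [zero_mul, add_zero, D1 _ (min_le_right _ _), ← D2 _ (min_le_right _ _)]
      congr 1
      ring

end Vale.Agent.P216
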