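import Vale.Agent.P216.Stm

/-! Lifting the local structure to a metric covering. -/

open Set Metric

namespace Vale.Agent.P216

namespace LiftAux

variable {G X M : Type} [Group G] [MetricSpace X] [MetricSpace M] [MulAction G X] {p : X → M}
  {ρ ε : ℝ}

theorem uniq (c : Cv G p ρ) {y y' : X} (h : p y = p y') (hd : dist y y' < ρ) : y = y' := by
  have := c.eq y y' hd
  rw [h, dist_self] at this
  exact dist_eq_zero.1 this.symm

theorem loc (c : Cv G p ρ) (l : Loc M ε) (h : 16 * ε ≤ ρ) : Loc X ε := by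
  have he := l.pos
  refine ⟨he, fun x y r h1 h2 h3 => ?_, fun x y z z' h1 h2 h3 h4 h5 => ?_⟩
  · have e := c.eq x y (by linarith)
    obtain ⟨m, ⟨m1, m2⟩, hm⟩ := l.btw (p x) (p y) r (by rwa [e]) h2 (by rwa [e])
    obtain ⟨z, z1, z2⟩ := c.lift x m (by linarith)
    obtain ⟨y', y1, y2⟩ := c.lift z (p y) (by rw [z1]; linarith)
    rw [z1] at y2
    have e2 : y' = y := uniq c y1 (by linarith [dist_triangle4 y' z x y, dist_comm y' z, dist_comm z x])
    subst e2
    refine ⟨z, ⟨by linarith, by linarith⟩, fun w hw => ?_⟩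
    have a1 := c.eq x w (by linarith [hw.1])
    have a2 := c.eq w y' (by linarith [hw.2])
    refine uniq c ((hm (p w) ⟨by linarith [hw.1], by linarith [hw.2]⟩).trans z1.symm) ?_
    linarith [dist_triangle_left w z x, hw.1]
  · have n1 : 0 ≤ dist x y := dist_nonneg
    have n2 : 0 ≤ dist y z := dist_nonneg
    have a1 := c.eq x y (by linarith)
    have a2 := c.eq x z (by linarith)
    have a3 := c.eq y z (by linarith)
    have a4 := c.eq x z' (by linarith)
    have a5 := c.eq y z' (by linarith)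
    refine uniq c (l.nb (p x) (p y) (p z) (p z') (fun e => h1 (uniq c e (by linarith)))
      (by linarith) (by linarith) (by linarith) (by linarith)) ?_
    linarith [dist_triangle_left z z' x]

theorem cball [CompactSpace M] (c : Cv G p ρ) (he : 0 < ε) (h : 16 * ε ≤ ρ) (x : X) :
    IsCompact (closedBall x (2 * ε)) := by
  have h1 : ∀ m : closedBall (p x) (2 * ε), ∃ y, p y = m ∧ dist x y ≤ 2 * ε := fun m => by
    have hm := mem_closedBall'.1 m.2
    obtain ⟨y, y1, y2⟩ := c.lift x m (by linarith)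
    exact ⟨y, y1, y2 ▸ hm⟩
  choose s s1 s2 using h1
  have hs : Isometry s := Isometry.of_dist_eq fun m m' => by
    rw [← c.eq _ _ (by linarith [dist_triangle_left (s m) (s m') x, s2 m, s2 m']), s1, s1]
    rfl
  have : CompactSpace (closedBall (p x) (2 * ε)) :=
    isCompact_iff_compactSpace.1 isClosed_closedBall.isCompact
  have e : closedBall x (2 * ε) = range s := by
    ext y
    constructor
    · intro hy
      have hy' := mem_closedBall'.1 hy
      have hm : p y ∈ closedBall (p x) (2 * ε) := by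
        rw [mem_closedBall', c.eq x y (by linarith)]
        exact hy'
      exact ⟨⟨p y, hm⟩, uniq c (s1 _)
        (by linarith [dist_triangle_left (s ⟨p y, hm⟩) y x, s2 ⟨p y, hm⟩])⟩
    · rintro ⟨m, rfl⟩
      exact mem_closedBall'.2 (s2 m)
  rw [e]
  exact isCompact_range hs.continuous

theorem fin (c : Cv G p ρ) (K : Set X) (hK : IsCompact K) :
    {γ : G | ∃ x ∈ K, γ • x ∈ K}.Finite := by
  have hρ := c.pos
  obtain ⟨t, -, ht, hc⟩ := hK.finite_cover_balls (show 0 < ρ / 8 by linarith)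
  have hs : ∀ a b : X, {γ : G | ∃ x, dist x a < ρ / 8 ∧ dist (γ • x) b < ρ / 8}.Subsingleton := by
    rintro a b γ ⟨x, x1, x2⟩ γ' ⟨x', y1, y2⟩
    have h1 : γ • x = γ' • x := by
      refine uniq c (((c.orb _ x).2 ⟨γ, rfl⟩).trans ((c.orb _ x).2 ⟨γ', rfl⟩).symm) ?_
      linarith [dist_triangle4 (γ • x) b (γ' • x') (γ' • x), dist_comm b (γ' • x'),
        c.iso γ' x' x, dist_triangle_right x' x a]
    have h2 : γ'⁻¹ * γ = 1 := c.free _ x (by rw [mul_smul, h1, inv_smul_smul])
    exact (inv_mul_eq_one.1 h2).symm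
  refine (ht.biUnion fun a _ => ht.biUnion fun b _ => (hs a b).finite).subset ?_
  rintro γ ⟨x, x1, x2⟩
  obtain ⟨a, ha, a1⟩ := mem_iUnion₂.1 (hc x1)
  obtain ⟨b, hb, b1⟩ := mem_iUnion₂.1 (hc x2)
  exact mem_iUnion₂.2 ⟨a, ha, mem_iUnion₂.2 ⟨b, hb, x, a1, b1⟩⟩

theorem cocpt [CompactSpace M] (c : Cv G p ρ) (he : 0 < ε) (h : 16 * ε ≤ ρ) :
    ∃ K : Set X, IsCompact K ∧ ∀ x, ∃ γ : G, γ • x ∈ K := by
  obtain ⟨t, -, ht, hc⟩ := (isCompact_univ (X := M)).finite_cover_balls he
  choose s hs using c.surj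
  refine ⟨⋃ m ∈ t, closedBall (s m) (2 * ε), ht.isCompact_biUnion fun m _ => cball c he h _,
    fun x => ?_⟩
  obtain ⟨m, hm, m1⟩ := mem_iUnion₂.1 (hc (mem_univ (p x)))
  have m2 := mem_ball'.1 m1
  obtain ⟨y, y1, y2⟩ := c.lift (s m) (p x) (by rw [hs]; linarith)
  obtain ⟨γ, hγ⟩ := (c.orb y x).1 y1
  refine ⟨γ, mem_iUnion₂.2 ⟨m, hm, ?_⟩⟩
  rw [hγ, mem_closedBall', y2, hs]
  linarith

end LiftAux

theorem sLift : SLift := fun _ _ _ _ _ _ _ _ _ _ _ c l h =>
  { toLoc := LiftAux.loc c l h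
    iso := c.iso
    free := c.free
    fin := LiftAux.fin c
    cocpt := LiftAux.cocpt c l.pos h
    ball := LiftAux.cball c l.pos h }

end Vale.Agent.P216
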