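import Vale.Agent.P216.Stm

/-! P216: midpoints. -/

open Set Metric Filter Topology

namespace Vale.Agent.P216

theorem sMid : SMid := by
  intro G X _ _ _ ε h
  have h0 := h.pos
  have ex : ∀ x y : X, dist x y ≤ 2 * ε →
      ∃! z, dist x z = dist x y / 2 ∧ dist z y = dist x y / 2 := fun x y hd => by
    have k := h.btw x y (dist x y / 2) hd (by positivity) (by linarith [dist_nonneg (x := x) (y := y)])
    rwa [sub_half] at k
  have h1 : ∀ x y : X, dist x y ≤ 2 * ε →
      dist x (mid x y) = dist x y / 2 ∧ dist (mid x y) y = dist x y / 2 :=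
    fun x y hd => Classical.epsilon_spec (ex x y hd).exists
  have h2 : ∀ x y z : X, dist x y ≤ 2 * ε → dist x z = dist x y / 2 → dist z y = dist x y / 2 →
      mid x y = z := fun x y z hd a b => (ex x y hd).unique (h1 x y hd) ⟨a, b⟩
  refine ⟨h1, h2, fun γ x y hd => h2 _ _ _ (by rwa [h.iso]) ?_ ?_, fun q hq => ?_⟩
  · rw [h.iso, h.iso, (h1 x y hd).1]
  · rw [h.iso, h.iso, (h1 x y hd).2]
  have hS : ∀ᶠ p in 𝓝[{q : X × X | dist q.1 q.2 ≤ ε}] q, dist p.1 p.2 ≤ ε := self_mem_nhdsWithin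
  have hq' : dist q.1 q.2 ≤ ε := hq
  refine (h.ball q.1).tendsto_nhds_of_unique_mapClusterPt ?_ fun z _ hz => ?_
  · have hb : ∀ᶠ p : X × X in 𝓝 q, p.1 ∈ ball q.1 ε :=
      continuous_fst.continuousAt.eventually (ball_mem_nhds _ h0)
    filter_upwards [hS, nhdsWithin_le_nhds hb] with p a b
    have c := (h1 p.1 p.2 (by linarith)).1
    have d := dist_triangle_left (mid p.1 p.2) q.1 p.1
    rw [mem_ball] at b
    rw [mem_closedBall]
    linarith
  have hne : (𝓝[{q : X × X | dist q.1 q.2 ≤ ε}] q ⊓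
      comap (fun p : X × X => mid p.1 p.2) (𝓝 z)).NeBot := by
    rw [inf_comm]
    exact neBot_inf_comap_iff_map'.2 hz
  have t1 : Tendsto (fun p : X × X => p) (𝓝[{q : X × X | dist q.1 q.2 ≤ ε}] q ⊓
      comap (fun p : X × X => mid p.1 p.2) (𝓝 z)) (𝓝 q) := inf_le_left.trans nhdsWithin_le_nhds
  have t2 : Tendsto (fun p : X × X => mid p.1 p.2) (𝓝[{q : X × X | dist q.1 q.2 ≤ ε}] q ⊓
      comap (fun p : X × X => mid p.1 p.2) (𝓝 z)) (𝓝 z) := tendsto_inf_right tendsto_comap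
  have t3 := (t1.fst_nhds.dist t1.snd_nhds).div_const 2
  refine (h2 _ _ _ (by linarith) (tendsto_nhds_unique_of_eventuallyEq (t1.fst_nhds.dist t2) t3 ?_)
    (tendsto_nhds_unique_of_eventuallyEq (t2.dist t1.snd_nhds) t3 ?_)).symm
  · exact (hS.filter_mono inf_le_left).mono fun p a => (h1 p.1 p.2 (by linarith)).1
  · exact (hS.filter_mono inf_le_left).mono fun p a => (h1 p.1 p.2 (by linarith)).2

end Vale.Agent.P216
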