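import Vale.Agent.P216.Stm

/-! Uniform energy drop away from the closed lines. -/

open Set Metric

namespace Vale.Agent.P216

theorem sPS (hp : SPhi) (he : SEq) (hc : SCurve) (hk : SCpt) : SPS := by
  intro G X _ _ _ ε s w K B hK hw hB hB1 hB2
  obtain ⟨W, Z, hW, hZ, hx⟩ := hk G X ε s w K
  obtain ⟨-, p2, p3, p4, p5, p6, -⟩ := hp G X ε s
  have hW' : {v | v ∈ W ∧ ∃ γ : G, v = γ * w * γ⁻¹}.Finite := hW.subset fun v hv => hv.1
  have hC := (hW'.isCompact_biUnion fun v _ => (hZ v).1).inter_right hB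
  have hcont : ContinuousOn (fun y : ℤ → X => En K y - En K (Phi y))
      ((⋃ v ∈ {v | v ∈ W ∧ ∃ γ : G, v = γ * w * γ⁻¹}, Z v) ∩ B) := by
    refine (p5 K).continuousOn.sub ((p5 K).comp_continuousOn (p4.mono fun y hy => ?_))
    obtain ⟨v, -, hv⟩ := mem_iUnion₂.1 hy.1
    exact ((hZ v).2 y hv).1
  obtain ⟨θ, h0, hθ⟩ := hC.exists_forall_le' hcont (a := 0) fun y hy => by
    obtain ⟨v, ⟨-, γ, rfl⟩, hv⟩ := mem_iUnion₂.1 hy.1
    have hy' := (hZ _).2 y hv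
    refine sub_pos.2 (lt_of_le_of_ne (p2 _ K y hy').2 fun e => hB2 γ y hy.2 ?_)
    obtain ⟨a, a0, a1, a2⟩ := he G X ε s _ K y hK (by simpa using hw) hy' e
    exact hc G X ε s _ K y a a0 hy' a1 a2
  refine ⟨θ, h0, fun x hxB hxC => ?_⟩
  obtain ⟨γ, h1, h2⟩ := hx x hxC
  have k := hθ (γ • x) ⟨mem_iUnion₂.2 ⟨_, ⟨h1, γ, rfl⟩, h2⟩, hB1 γ x hxB⟩
  simp only [p3 γ x hxC.1, p6] at k
  linarith

end Vale.Agent.P216
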