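import Vale.Agent.P216.Stm

open Set Metric

namespace Vale.Agent.P216

theorem sPhi (hm : SMid) : SPhi := by
  intro G X _ _ _ ε s
  obtain ⟨m1, m2, m3, m4⟩ := hm G X ε s
  have hε := s.pos
  have key : ∀ x : ℤ → X, Stp ε x → ∀ i, dist (Phi x i) (Phi x (i + 1)) ≤
      (dist (x i) (x (i + 1)) + dist (x (i + 1)) (x (i + 1 + 1))) / 2 := by
    intro x hx i
    have h1 := (m1 (x i) (x (i + 1)) (by linarith [hx i])).2
    have h2 := (m1 (x (i + 1)) (x (i + 1 + 1)) (by linarith [hx (i + 1)])).1
    have h3 := dist_triangle (Phi x i) (x (i + 1)) (Phi x (i + 1))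
    unfold Phi at h3 ⊢
    linarith
  have stp : ∀ x : ℤ → X, Stp ε x → Stp ε (Phi x) := fun x hx i => by
    linarith [key x hx i, hx i, hx (i + 1)]
  refine ⟨stp, fun w K x hx => ⟨⟨stp x hx.1, fun i => ?_⟩, ?_⟩, fun γ x hx => ?_, ?_,
    fun K => ?_, fun K γ x => ?_, fun c η a b hc h0 h1 h2 => ?_⟩
  · unfold Phi
    rw [add_right_comm i (K : ℤ) 1, hx.2 i, hx.2 (i + 1), m3 w _ _ (by linarith [hx.1 i])]
  · have e : ∑ i ∈ Finset.range K, dist (x ((i : ℤ) + 1)) (x ((i : ℤ) + 1 + 1)) ^ 2 = En K x := by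
      have a1 := Finset.sum_range_succ (fun i : ℕ => dist (x i) (x (i + 1)) ^ 2) K
      have a2 := Finset.sum_range_succ' (fun i : ℕ => dist (x i) (x (i + 1)) ^ 2) K
      have a3 : dist (x (K : ℤ)) (x ((K : ℤ) + 1)) = dist (x 0) (x (0 + 1)) := by
        have b1 := hx.2 0
        have b2 := hx.2 (0 + 1)
        rw [zero_add] at b1
        rw [zero_add, add_comm] at b2
        rw [b1, b2, s.iso, zero_add]
      rw [a3] at a1
      simp only [Nat.cast_add, Nat.cast_one, Nat.cast_zero] at a2
      unfold En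
      linarith
    calc En K (Phi x) ≤ ∑ i ∈ Finset.range K, (dist (x i) (x (i + 1)) ^ 2 +
          dist (x ((i : ℤ) + 1)) (x ((i : ℤ) + 1 + 1)) ^ 2) / 2 := by
          refine Finset.sum_le_sum fun i _ => ?_
          refine (pow_le_pow_left₀ dist_nonneg (key x hx.1 i) 2).trans ?_
          nlinarith [sq_nonneg (dist (x i) (x (i + 1)) - dist (x ((i : ℤ) + 1)) (x ((i : ℤ) + 1 + 1)))]
      _ = En K x := by
          rw [← Finset.sum_div, Finset.sum_add_distrib, e]
          unfold En
          ring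
  · funext i
    exact m3 γ _ _ (by linarith [hx i])
  · refine continuousOn_pi.2 fun i => ?_
    exact m4.comp (f := fun x : ℤ → X => (x i, x (i + 1))) (Continuous.continuousOn (by fun_prop))
      fun x hx => hx i
  · unfold En
    fun_prop
  · unfold En
    simp only [Pi.smul_apply, s.iso]
  · funext i
    have d1 : dist (c (i * a + b)) (c (((i + 1 : ℤ) : ℝ) * a + b)) = a := by
      have e : |(i * a + b) - (((i + 1 : ℤ) : ℝ) * a + b)| = a := by
        rw [abs_sub_comm, ← abs_of_nonneg h0]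
        congr 1
        rw [abs_of_nonneg h0]
        push_cast
        ring
      rw [hc _ _ (by rw [e]; exact h1), e]
    have d2 : dist (c (i * a + b)) (c (i * a + (b + a / 2))) = a / 2 := by
      have e : |(i * a + b) - (i * a + (b + a / 2))| = a / 2 := by
        rw [abs_sub_comm, ← abs_of_nonneg (by linarith : 0 ≤ a / 2)]
        congr 1
        rw [abs_of_nonneg (by linarith : 0 ≤ a / 2)]
        ring
      rw [hc _ _ (by rw [e]; linarith), e]
    have d3 : dist (c (i * a + (b + a / 2))) (c (((i + 1 : ℤ) : ℝ) * a + b)) = a / 2 := by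
      have e : |(i * a + (b + a / 2)) - (((i + 1 : ℤ) : ℝ) * a + b)| = a / 2 := by
        rw [abs_sub_comm, ← abs_of_nonneg (by linarith : 0 ≤ a / 2)]
        congr 1
        rw [abs_of_nonneg (by linarith : 0 ≤ a / 2)]
        push_cast
        ring
      rw [hc _ _ (by rw [e]; linarith), e]
    exact m2 _ _ _ (by rw [d1]; linarith) (by rw [d1, d2]) (by rw [d1, d3])

end Vale.Agent.P216
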