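import Vale.Agent.P216.Stm

/-! The moving front. -/

open Set Metric

namespace Vale.Agent.P216

namespace PsiAux

/-- distance to the nearest multiple of `K` -/
def phi (K i : ℤ) : ℤ := min (i % K) (K - i % K)

theorem phi_bd {K : ℤ} (hK : 0 < K) (i : ℤ) : 0 ≤ phi K i ∧ phi K i ≤ K := by
  have h1 := Int.emod_nonneg i hK.ne'
  have h2 := Int.emod_lt_of_pos i hK
  unfold phi
  omega

theorem phi_lip {K : ℤ} (hK : 0 < K) (i : ℤ) :
    phi K (i + 1) ≤ phi K i + 1 ∧ phi K i ≤ phi K (i + 1) + 1 := by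
  have h1 := Int.emod_nonneg i hK.ne'
  have h2 := Int.emod_lt_of_pos i hK
  have h3 : (i + 1) % K = (i % K + 1) % K := (Int.emod_add_emod i K 1).symm
  unfold phi
  rcases lt_or_ge (i % K + 1) K with h | h
  · rw [Int.emod_eq_of_lt (by omega) h] at h3
    omega
  · have h4 : i % K + 1 = K := by omega
    rw [h4, Int.emod_self] at h3
    omega

theorem phi_per (K i : ℤ) : phi K (i + K) = phi K i := by
  unfold phi; rw [Int.add_emod_right]

theorem clamp_lip (x y : ℝ) : |max 0 (min 1 x) - max 0 (min 1 y)| ≤ |x - y| := by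
  have h1 := le_abs_self (x - y)
  have h2 := neg_abs_le (x - y)
  rw [abs_le]
  simp only [max_def, min_def]
  split_ifs <;> constructor <;> linarith

theorem clamp_zero {x : ℝ} (h : x ≤ 0) : max 0 (min 1 x) = 0 :=
  max_eq_left ((min_le_right _ _).trans h)

theorem clamp_one {x : ℝ} (h : 1 ≤ x) : max 0 (min 1 x) = 1 := by
  rw [min_eq_left h]; exact max_eq_right zero_le_one

end PsiAux

open PsiAux in
theorem sPsi : SPsi := by
  intro k n hk hn
  have hK : (0 : ℤ) < ((n * k : ℕ) : ℤ) := by positivity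
  have hk' : (0 : ℝ) < k := by positivity
  set K : ℤ := ((n * k : ℕ) : ℤ) with hKd
  have hz : ∀ (σ : ℝ) (i : ℤ), σ * k ≤ phi K i → max 0 (min 1 (σ - (phi K i : ℝ) / k)) = 0 := by
    intro σ i h
    refine clamp_zero ?_
    rw [sub_nonpos, le_div_iff₀ hk']
    exact h
  have ho : ∀ (σ : ℝ) (i : ℤ), (phi K i : ℝ) ≤ σ * k - k →
      max 0 (min 1 (σ - (phi K i : ℝ) / k)) = 1 := by
    intro σ i h
    refine clamp_one ?_
    rw [le_sub_comm, div_le_iff₀ hk']
    linarith
  refine ⟨fun σ i => max 0 (min 1 (σ - (phi K i : ℝ) / k)), fun i => by fun_prop,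
    fun σ i => ⟨le_max_left _ _, max_le zero_le_one (min_le_left _ _)⟩, fun σ i => ?_,
    fun σ i => by simp only [phi_per], fun i => hz _ _ ?_, fun i => ho _ _ ?_, fun σ => ?_⟩
  · refine (clamp_lip _ _).trans ?_
    have h := phi_lip hK i
    have h1 : (phi K (i + 1) : ℝ) ≤ phi K i + 1 := by exact_mod_cast h.1
    have h2 : (phi K i : ℝ) ≤ phi K (i + 1) + 1 := by exact_mod_cast h.2
    have h3 : σ - (phi K (i + 1) : ℝ) / k - (σ - (phi K i : ℝ) / k) =
        ((phi K i : ℝ) - phi K (i + 1)) / k := by ring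
    rw [h3, abs_div, abs_of_pos hk']
    gcongr
    rw [abs_le]
    constructor <;> linarith
  · rw [zero_mul]
    exact_mod_cast (phi_bd hK i).1
  · have h1 : (phi K i : ℝ) ≤ K := by exact_mod_cast (phi_bd hK i).2
    have h2 : (K : ℝ) = n * k := by rw [hKd]; push_cast; ring
    linarith
  · set m : ℤ := ⌊σ * k⌋ - k - 1 with hm
    refine ⟨(Finset.range (k + 3)).image (fun j : ℕ => (m + j).toNat) ∪
      (Finset.range (k + 3)).image (fun j : ℕ => (K - (m + j)).toNat), ?_, fun i hi hD => ?_⟩
    · refine (Finset.card_union_le _ _).trans ?_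
      have h1 := Finset.card_image_le (s := Finset.range (k + 3))
        (f := fun j : ℕ => (m + j).toNat)
      have h2 := Finset.card_image_le (s := Finset.range (k + 3))
        (f := fun j : ℕ => (K - (m + j)).toNat)
      rw [Finset.card_range] at h1 h2
      omega
    · have hi' : (i : ℤ) < K := by rw [hKd]; exact_mod_cast hi
      have hp : phi K i = min (i : ℤ) (K - i) := by
        unfold phi; rw [Int.emod_eq_of_lt (by omega) hi']
      have hl := phi_lip hK i
      have hout : phi K i < m ∨ m + k + 2 < phi K i := by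
        by_contra hc
        apply hD
        rw [Finset.mem_union, Finset.mem_image, Finset.mem_image]
        rcases le_total (i : ℤ) (K - i) with h | h
        · exact Or.inl ⟨(phi K i - m).toNat, Finset.mem_range.mpr (by omega), by omega⟩
        · exact Or.inr ⟨(phi K i - m).toNat, Finset.mem_range.mpr (by omega), by omega⟩
      have f1 := Int.floor_le (σ * k)
      have f2 := Int.lt_floor_add_one (σ * k)
      rcases hout with h | h
      · have h1 : (phi K i : ℝ) ≤ ⌊σ * k⌋ - k := by exact_mod_cast (by omega : phi K i ≤ _ - (k : ℤ))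
        have h2 : (phi K (i + 1) : ℝ) ≤ ⌊σ * k⌋ - k := by
          exact_mod_cast (by omega : phi K (i + 1) ≤ _ - (k : ℤ))
        exact Or.inr ⟨ho _ _ (by linarith), ho _ _ (by linarith)⟩
      · have h1 : (⌊σ * k⌋ : ℝ) + 1 ≤ phi K i := by exact_mod_cast (by omega : _ + 1 ≤ phi K i)
        have h2 : (⌊σ * k⌋ : ℝ) + 1 ≤ phi K (i + 1) := by
          exact_mod_cast (by omega : _ + 1 ≤ phi K (i + 1))
        exact Or.inl ⟨hz _ _ (by linarith), hz _ _ (by linarith)⟩

end Vale.Agent.P216
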