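import Vale.Agent.P216.Stm
import Vale.Agent.P234.HR

/-! Riemannian manifolds: unique short segments, lines are geodesics. -/

open scoped Manifold ContDiff
open Set Metric

namespace Vale.Agent.P216

open Vale.Agent.P234

namespace RiemAux

variable {E : Type} [NormedAddCommGroup E] [NormedSpace ℝ E] [FiniteDimensional ℝ E]
  {M : Type} [MetricSpace M] [CompactSpace M] [ChartedSpace E M] [IsManifold 𝓘(ℝ, E) ∞ M]
  {g : M → E →L[ℝ] E →L[ℝ] ℝ}

theorem nb0 (h : RM g) {x y z z' : M} (hxy : x ≠ y) (h1 : dist x z = dist x y + dist y z)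
    (h2 : dist x z' = dist x y + dist y z') (h3 : dist y z = dist y z') : z = z' := by
  obtain ⟨a, a1, a2⟩ := h.hopf_rinow y x
  obtain ⟨b, b1, b2⟩ := h.hopf_rinow y z
  obtain ⟨b', c1, c2⟩ := h.hopf_rinow y z'
  have na : nr g y a = dist x y := by rw [← a1, a2, dist_comm]
  have nb : nr g y b = dist y z := by rw [← b1, b2]
  have nc : nr g y b' = dist y z' := by rw [← c1, c2]
  have k1 := h.corner (m := y) (a := a) (b := b) (by rw [na, nb, a2, b2, h1])
  have k2 := h.corner (m := y) (a := a) (b := b') (by rw [na, nc, a2, c2, h2])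
  rw [nb, h3] at k1
  rw [nc, ← k1, add_right_inj, na] at k2
  rw [← b2, ← c2, smul_right_injective E (dist_ne_zero.2 hxy) k2]

theorem uniq (h : RM g) {r : ℝ} (hr : 0 < r) (hn : ∀ x v, nr g x v < r → Mn g x v) {x y z z' : M}
    {s : ℝ} (hd : dist x y ≤ r / 2) (hs : s ≤ dist x y) (h1 : dist x z = s)
    (h2 : dist z y = dist x y - s) (h3 : dist x z' = s) (h4 : dist z' y = dist x y - s) :
    z = z' := by
  rcases eq_or_ne x y with rfl | hxy
  · rw [dist_self] at hs
    rw [← dist_le_zero.1 (h1.trans_le hs), ← dist_le_zero.1 (h3.trans_le hs)]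
  have d0 := dist_pos.2 hxy
  obtain ⟨v, v1, v2⟩ := h.hopf_rinow x y
  have nv : nr g x v = dist x y := by rw [← v1, v2]
  have nw : nr g x ((3 / 2 : ℝ) • v) = 3 / 2 * dist x y := by
    rw [nr_smul, nv, abs_of_pos (by norm_num)]
  have mw := hn x ((3 / 2 : ℝ) • v) (by linarith)
  have e1 : dist x (ex g x ((3 / 2 : ℝ) • v)) = 3 / 2 * dist x y := mw.trans nw
  have e2 := h.mn_dist mw (s := 2 / 3) (t := 1) (by norm_num) (by norm_num) le_rfl
  rw [one_smul, smul_smul, show (2 / 3 * (3 / 2) : ℝ) = 1 by norm_num, one_smul, v2, nw,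
    dist_comm y] at e2
  generalize ex g x ((3 / 2 : ℝ) • v) = p at e1 e2
  have k : ∀ q, dist x q = s → dist q y = dist x y - s → dist p q = dist p y + dist y q :=
    fun q q1 q2 => le_antisymm (dist_triangle _ _ _) (by
      linarith [dist_triangle x q p, dist_comm q p, dist_comm q y])
  exact nb0 h (dist_pos.1 (by linarith)) (k z h1 h2) (k z' h3 h4)
    (by rw [dist_comm y, dist_comm y, h2, h4])

end RiemAux

open RiemAux in
theorem sRiem (hu : SUC) : SRiem := by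
  intro E _ _ _ M _ _ _ _ g h
  obtain ⟨r, hr, -, hn⟩ := h.normal
  have L : ∀ ε, 0 < ε → ε ≤ r / 4 → Loc M ε := fun ε e0 e1 =>
    ⟨e0, fun x y s hd s0 s1 => by
      obtain ⟨z, z1, z2⟩ := h.mid x y s s0 s1
      exact ⟨z, ⟨z1, z2⟩, fun z' hz => uniq h hr hn (by linarith) s1 hz.1 hz.2 z1 z2⟩,
      fun x y z z' hxy _ h1 h2 h3 => nb0 h hxy h1 h2 h3⟩
  refine ⟨r / 4, by positivity, L, fun c η hη hc => ?_⟩
  obtain ⟨a, a0, a1, a2⟩ : ∃ a, 0 < a ∧ a ≤ η ∧ a ≤ r / 4 :=
    ⟨min η (r / 4), lt_min hη (by positivity), min_le_left _ _, min_le_right _ _⟩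
  obtain ⟨v, v1, v2⟩ := h.hopf_rinow (c 0) (c a)
  have nv : nr g (c 0) v = a := by
    rw [← v1, v2, hc 0 a (by rw [zero_sub, abs_neg, abs_of_pos a0]; exact a1), zero_sub, abs_neg,
      abs_of_pos a0]
  have nu : nr g (c 0) (a⁻¹ • v) = 1 := by
    rw [nr_smul, nv, abs_of_pos (inv_pos.2 a0), inv_mul_cancel₀ a0.ne']
  have l : Line a (geo g (c 0) (a⁻¹ • v)) := fun s t hst => by
    have n1 : nr g (ex g (c 0) (s • a⁻¹ • v)) ((t - s) • vl g (c 0) (a⁻¹ • v) s) = |s - t| := by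
      rw [nr_smul, h.nr_vl, nu, mul_one, abs_sub_comm]
    have m := hn _ _ (n1.trans_lt (by linarith))
    rw [Mn, n1, h.ex_flow, add_sub_cancel] at m
    rw [h.geo_eq, h.geo_eq, m]
  rw [hu M _ (L _ (by positivity) le_rfl) c _ a a (hc.mono a1) l a0 le_rfl a2
    (h.geo_zero _ _).symm (by rw [h.geo_eq, smul_inv_smul₀ a0.ne', v2])]
  exact (h.geo_spec _ _).1

end Vale.Agent.P216
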