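import Vale.Agent.P216.Stm

open Set Metric Filter Topology

namespace Vale.Agent.P216

namespace SepAux

variable {G X : Type} [Group G] [MetricSpace X] [MulAction G X]

omit [MetricSpace X] in
theorem nf {f : ℝ → X} {u : G} {L : ℝ} (hL : 0 < L) (h : Tr f u L) (γ : G) (b : ℝ) :
    ∃ (γ' : G) (b' : ℝ), b' ∈ Icc 0 L ∧ ∀ t, γ • f (t + b) = γ' • f (t + b') := by
  refine ⟨γ * u ^ ⌊b / L⌋, b - ⌊b / L⌋ * L, ⟨?_, ?_⟩, fun t => ?_⟩
  · have := Int.floor_le (b / L)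
    rw [le_div_iff₀ hL] at this
    linarith
  · have := Int.lt_floor_add_one (b / L)
    rw [div_lt_iff₀ hL] at this
    linarith
  · rw [mul_smul, ← h.zpow ⌊b / L⌋, show t + (b - ⌊b / L⌋ * L) + ⌊b / L⌋ * L = t + b by ring]

theorem pair (hu : SUC) {ε η a : ℝ} (s : Loc X ε) {f f' : ℝ → X} (hf : Line η f) (hf' : Line η f')
    (ha : 0 < a) (haη : a ≤ η) (hηε : η ≤ ε) (L L' : ℝ) :
    ∀ᶠ δ in 𝓝[>] (0 : ℝ), ∀ b ∈ Icc 0 L, ∀ b' ∈ Icc 0 L', dist (f b) (f' b') < δ →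
      dist (f (a + b)) (f' (a + b')) < δ → ∃ b0, ∀ t, f' t = f (t + b0) := by
  by_cases h : ∃ b0, ∀ t, f' t = f (t + b0)
  · exact Eventually.of_forall fun δ _ _ _ _ _ _ => h
  have c1 := hf.continuous (ha.trans_le haη)
  have c2 := hf'.continuous (ha.trans_le haη)
  have hc : Continuous fun p : ℝ × ℝ =>
      dist (f p.1) (f' p.2) + dist (f (a + p.1)) (f' (a + p.2)) := by fun_prop
  obtain ⟨m, hm, hle⟩ := ((isCompact_Icc (a := (0 : ℝ)) (b := L)).prod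
    (isCompact_Icc (a := (0 : ℝ)) (b := L'))).exists_forall_le' hc.continuousOn (a := 0) (by
      rintro ⟨b, b'⟩ -
      by_contra hn
      have h1 : dist (f b) (f' b') = 0 :=
        le_antisymm (by linarith [dist_nonneg (x := f (a + b)) (y := f' (a + b')), not_lt.1 hn])
          dist_nonneg
      have h2 : dist (f (a + b)) (f' (a + b')) = 0 :=
        le_antisymm (by linarith [dist_nonneg (x := f b) (y := f' b'), not_lt.1 hn]) dist_nonneg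
      have h3 := hu X ε s _ _ η a (hf.shift b) (hf'.shift b') ha haη (haη.trans hηε)
        (by simpa using h1) (dist_eq_zero.1 h2)
      refine h ⟨b - b', fun t => ?_⟩
      have h4 := congrFun h3 (t - b')
      simp only [sub_add_cancel] at h4
      rw [← h4, show t - b' + b = t + (b - b') by ring])
  filter_upwards [nhdsWithin_le_nhds (gt_mem_nhds (half_pos hm))] with δ hδ b hb b' hb' h1 h2
  have := hle (b, b') ⟨hb, hb'⟩
  have hδ' : δ < m / 2 := hδ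
  exact absurd this (not_le.2 (by linarith))

end SepAux

open SepAux in
theorem sSep (hu : SUC) : SSep := by
  intro G X _ _ _ ε s hF
  obtain ⟨F, hfin, hcl, hall⟩ := hF
  have h1 : ∀ᶠ η in 𝓝[>] (0 : ℝ), ∀ f ∈ F, Line η f := hfin.eventually_all.2 fun f hf => by
    obtain ⟨η, hη, hl⟩ := (hcl f hf).1
    filter_upwards [nhdsWithin_le_nhds (gt_mem_nhds hη)] with η' h
    exact hl.mono (le_of_lt h)
  have hε : ∀ᶠ η in 𝓝[>] (0 : ℝ), η < ε := nhdsWithin_le_nhds (gt_mem_nhds s.pos)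
  obtain ⟨η, hη0, hηε, hline⟩ := (eventually_mem_nhdsWithin.and (hε.and h1)).exists
  have hη0' : 0 < η := hη0
  refine ⟨η, hη0', hηε.le, fun c hc => ?_, fun a ha haη => ?_⟩
  · obtain ⟨f, hf, γ, b, h⟩ := hall c hc
    rw [show c = fun t => γ • f (t + b) from funext h]
    exact s.line ((hline f hf).shift b) γ
  choose! u L hL hT using fun f hf => (hcl f hf).2
  have hK : IsCompact (⋃ f ∈ F, f '' Icc 0 (L f)) :=
    hfin.isCompact_biUnion fun f hf => isCompact_Icc.image (hcl f hf).continuous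
  obtain ⟨K', hK', hth⟩ := s.thick hK
  have hΓ := s.fin _ (hK.union hK')
  have h2 : ∀ᶠ δ in 𝓝[>] (0 : ℝ), ∀ f ∈ F, ∀ f' ∈ F,
      ∀ β ∈ {γ : G | ∃ x ∈ (⋃ f ∈ F, f '' Icc 0 (L f)) ∪ K',
        γ • x ∈ (⋃ f ∈ F, f '' Icc 0 (L f)) ∪ K'},
      ∀ b ∈ Icc 0 (L f), ∀ b' ∈ Icc 0 (L f'), dist (f b) (β • f' b') < δ →
        dist (f (a + b)) (β • f' (a + b')) < δ → ∃ b0, ∀ t, β • f' t = f (t + b0) :=
    hfin.eventually_all.2 fun f hf => hfin.eventually_all.2 fun f' hf' =>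
      hΓ.eventually_all.2 fun β _ =>
        pair hu s.toLoc (hline f hf) (s.line (hline f' hf') β) ha haη hηε.le _ _
  obtain ⟨δ, hδ0, hδε, hδ⟩ := (eventually_mem_nhdsWithin.and (hε.and h2)).exists
  refine ⟨δ, hδ0, fun c c' hc hc' d0 d1 => ?_⟩
  obtain ⟨f, hf, γ₀, b₀, e₀⟩ := hall c hc
  obtain ⟨f', hf', γ₀', b₀', e₀'⟩ := hall c' hc'
  obtain ⟨γ, b, hb, e⟩ := nf (hL f hf) (hT f hf) γ₀ b₀
  obtain ⟨γ', b', hb', e'⟩ := nf (hL f' hf') (hT f' hf') γ₀' b₀'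
  have hd : ∀ t, dist (c t) (c' t) = dist (f (t + b)) ((γ⁻¹ * γ') • f' (t + b')) := fun t => by
    rw [e₀, e₀', e, e', ← s.iso γ⁻¹, inv_smul_smul, mul_smul]
  rw [hd] at d0 d1
  rw [zero_add, zero_add] at d0
  have m1 : f b ∈ ⋃ f ∈ F, f '' Icc 0 (L f) := mem_iUnion₂.2 ⟨f, hf, b, hb, rfl⟩
  have m2 : f' b' ∈ ⋃ f ∈ F, f '' Icc 0 (L f) := mem_iUnion₂.2 ⟨f', hf', b', hb', rfl⟩
  obtain ⟨b0, h0⟩ := hδ f hf f' hf' (γ⁻¹ * γ')
    ⟨f' b', Or.inl m2, Or.inr (hth _ m1 _ (d0.trans hδε).le)⟩ b hb b' hb' d0 d1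
  refine ⟨b' + b0 - b, fun t => ?_⟩
  rw [e₀, e₀', e, e', show t + (b' + b0 - b) + b = t + b' + b0 by ring, ← h0, mul_smul,
    smul_inv_smul]

end Vale.Agent.P216
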