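import Vale.Agent.P216.Stm

/-! Unique continuation of lines. -/

open Set Metric

namespace Vale.Agent.P216

namespace UCAux

variable {X : Type} [MetricSpace X] {ε η a : ℝ} {c c' : ℝ → X}

theorem ld (h : Line η c) {s t : ℝ} (hst : s ≤ t) (h1 : t - s ≤ η) : dist (c s) (c t) = t - s := by
  have e : |s - t| = t - s := by rw [abs_sub_comm, abs_of_nonneg (sub_nonneg.2 hst)]
  rw [h s t (by rwa [e]), e]

theorem fwd (hL : Loc X ε) (h : Line η c) (h' : Line η c') (ha : 0 < a) (h1 : a ≤ η) (h2 : a ≤ ε)
    (e0 : c 0 = c' 0) (ea : c a = c' a) (t : ℝ) (ht : 0 ≤ t) : c t = c' t := by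
  have key : ∀ (n : ℕ) (t : ℝ), 0 ≤ t → t ≤ a + n * (a / 2) → c t = c' t := by
    intro n
    induction n with
    | zero =>
      intro t t0 t1
      rw [Nat.cast_zero, zero_mul, add_zero] at t1
      have d : dist (c 0) (c a) = a - 0 := ld h ha.le (by linarith)
      refine (hL.btw (c 0) (c a) t (by linarith) t0 (by linarith)).unique ⟨?_, ?_⟩ ⟨?_, ?_⟩
      · rw [ld h t0 (by linarith), sub_zero]
      · rw [ld h t1 (by linarith), d, sub_zero]
      · rw [e0, ld h' t0 (by linarith), sub_zero]
      · rw [d, ea, ld h' t1 (by linarith), sub_zero]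
    | succ n ih =>
      intro t t0 t1
      have hn : 0 ≤ (n : ℝ) * (a / 2) := by positivity
      rw [Nat.cast_succ, add_mul, one_mul] at t1
      set T := a + n * (a / 2) with hT
      rcases le_or_gt t T with h3 | h3
      · exact ih t t0 h3
      have ex := ih (T - a / 2) (by linarith) (by linarith)
      have ey := ih T (by linarith) le_rfl
      have d1 : dist (c (T - a / 2)) (c T) = T - (T - a / 2) := ld h (by linarith) (by linarith)
      have d2 : dist (c (T - a / 2)) (c t) = t - (T - a / 2) := ld h (by linarith) (by linarith)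
      have d3 : dist (c T) (c t) = t - T := ld h h3.le (by linarith)
      have d4 : dist (c (T - a / 2)) (c' t) = t - (T - a / 2) := by
        rw [ex]; exact ld h' (by linarith) (by linarith)
      have d5 : dist (c T) (c' t) = t - T := by rw [ey]; exact ld h' h3.le (by linarith)
      refine hL.nb (c (T - a / 2)) (c T) _ _ (dist_pos.1 (by linarith)) (by linarith)
        (by linarith) (by linarith) (by linarith)
  obtain ⟨n, hn⟩ := exists_nat_ge (t / (a / 2))
  rw [div_le_iff₀ (half_pos ha)] at hn
  exact key n t ht (by linarith)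

end UCAux

theorem sUC : SUC := by
  intro X _ ε hL c c' η a h h' ha h1 h2 e0 ea
  funext t
  rcases le_total 0 t with ht | ht
  · exact UCAux.fwd hL h h' ha h1 h2 e0 ea t ht
  · have := UCAux.fwd hL (h.shift a).rev (h'.shift a).rev ha h1 h2 (by simpa using ea)
      (by simpa using e0) (a - t) (by linarith)
    simpa using this

end Vale.Agent.P216
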