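import Vale.Agent.P216.Top
import Vale.Agent.P216.Bal
import Vale.Agent.P216.Front
import Vale.Agent.P216.Psi
import Vale.Agent.P216.Curve
import Vale.Agent.P216.Sep
import Vale.Agent.P216.Fin
import Vale.Agent.P216.Hom
import Vale.Agent.P216.Lift
import Vale.Agent.P216.PS
import Vale.Agent.P216.Flow
import Vale.Agent.P216.Cpt
import Vale.Agent.P216.Phi
import Vale.Agent.P216.Eq
import Vale.Agent.P216.UC
import Vale.Agent.P216.Cyc
import Vale.Agent.P216.Gap
import Vale.Agent.P216.Ex
import Vale.Agent.P216.Conn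
import Vale.Agent.P216.Mid
import Vale.Agent.P216.Grp
import Vale.Agent.P216.DmA
import Vale.Agent.P216.DmB
import Vale.Agent.P216.DmC
import Vale.Agent.P216.Riem
import Vale.Agent.P234.Bridge

/-! The theorem on non-cyclic centralisers. -/

open scoped Manifold ContDiff

namespace Vale.Agent.P216

theorem phi : SPhi := sPhi sMid

theorem ps : SPS := sPS phi (sEq sMid) (sCurve sMid sSeg) sCpt

theorem abs_main : SMain := sMain phi (sFin sUC) (sGap sCyc) (sSep sUC) (sEx phi ps) sHom
  (sFront sPsi) (sFlow phi ps) sConn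

theorem main {E : Type} [NormedAddCommGroup E] [NormedSpace ℝ E] [FiniteDimensional ℝ E]
    {M : Type} [MetricSpace M] [CompactSpace M] [ChartedSpace E M] [IsManifold 𝓘(ℝ, E) ∞ M]
    (g : P255.RMetric E M) (hd : P234.IsGeodesicDist g) (G X : Type) [Group G]
    [TopologicalSpace X] [SimplyConnectedSpace X] [MulAction G X] (p : X → M)
    (hp : IsQuotientCoveringMap p G) (τ : G → ℝ) (h1 : Gauge τ) (h2 : BigCent τ) :
    (Images (E := E) g.inner).Infinite :=
  top sDmA (sDmB sDmA sSeg) (sDmC sDmA sSeg) sLift (sRiem sUC) abs_main g.inner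
    (P234.rm_of_metric g hd) G X p hp τ h1 h2

theorem main_bal {E : Type} [NormedAddCommGroup E] [NormedSpace ℝ E] [FiniteDimensional ℝ E]
    {M : Type} [MetricSpace M] [CompactSpace M] [ChartedSpace E M] [IsManifold 𝓘(ℝ, E) ∞ M]
    (g : P255.RMetric E M) (hd : P234.IsGeodesicDist g) (G X : Type) [Group G]
    [TopologicalSpace X] [SimplyConnectedSpace X] [MulAction G X] (p : X → M)
    (hp : IsQuotientCoveringMap p G) (w : G) (hw : Balanced w)
    (h : ¬ IsCyclic (Subgroup.centralizer ({w} : Set G)) ∨ IsProduct G ∨ HasFC G) :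
    (Images (E := E) g.inner).Infinite := by
  obtain ⟨τ, h1, h2⟩ := hw.exists_gauge
  refine main g hd G X p hp τ h1 ?_
  rcases h with h | h | h
  · exact bigCent_of_cent h2 h
  · exact sProd G τ h1 h
  · exact sFC G τ h1 h

end Vale.Agent.P216
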