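import Vale.Agent.P216.Main

/-! Finite quotients and finite index subgroups. -/

open Set Metric
open scoped Manifold ContDiff

namespace Vale.Agent.P216

variable {G X : Type} [Group G] [MetricSpace X] [MulAction G X]

theorem exists_line [PathConnectedSpace X] {ε : ℝ} (s : St G X ε) {w : G} (hw1 : w ≠ 1) :
    ∃ (β : G) (c : ℝ → X) (L : ℝ), Cl G c ∧ Tr c (β * w * β⁻¹) L := by
  obtain ⟨K, x, hK, hx⟩ := ExAux.chain s w
  have hex : ∃ (β : G) (y : ℤ → X), OnLine (β * w * β⁻¹) K y := by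
    by_contra hc
    obtain ⟨θ, hθ, h⟩ := ps G X ε s w K univ hK hw1 isClosed_univ (fun _ _ _ => mem_univ _)
      (fun β y _ hy => hc ⟨β, y, hy⟩)
    have hit : ∀ N : ℕ, Ch ε w K (Phi^[N] x) ∧ En K (Phi^[N] x) + N * θ ≤ En K x := by
      intro N
      induction N with
      | zero => exact ⟨hx, by simp⟩
      | succ N ih =>
        rw [Function.iterate_succ_apply']
        refine ⟨((phi G X ε s).2.1 w K _ ih.1).1, ?_⟩
        have := h _ (mem_univ _) ih.1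
        push_cast
        linarith [ih.2]
    obtain ⟨N, hN⟩ := exists_nat_gt (En K x / θ)
    rw [div_lt_iff₀ hθ] at hN
    linarith [(hit N).2, En.nonneg K (Phi^[N] x)]
  obtain ⟨β, y, c, a, ha, h1, h2, -, -⟩ := hex
  exact ⟨β, c, K * a, OnLine.cl hK ha h1 h2, h2⟩

/-- Finitely many cyclic subgroups cover the group up to conjugacy. -/
def Ncc (G : Type) [Group G] : Prop :=
  ∃ T : Finset G, ∀ w : G, ∃ a ∈ T, ∃ j : ℤ, IsConj w (a ^ j)

theorem ncc_of_fn [PathConnectedSpace X] {ε : ℝ} (s : St G X ε) (h : Fn G X) : Ncc G := by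
  classical
  obtain ⟨F, hF, h1, h2⟩ := h
  choose! g L hg using fun f (hf : f ∈ F) => sCyc G X ε s f (h1 f hf)
  refine ⟨insert 1 (hF.toFinset.image g), fun w => ?_⟩
  rcases eq_or_ne w 1 with rfl | hw
  · exact ⟨1, Finset.mem_insert_self _ _, 0, by simp⟩
  obtain ⟨β, c, L', hc, ht⟩ := exists_line s hw
  obtain ⟨f, hf, γ, b, e⟩ := h2 c hc
  obtain ⟨n, -, hn⟩ := (hg f hf).2.2 (γ⁻¹ * (β * w * β⁻¹) * γ) L' fun t => by
    have h3 := ht (t - b)
    rw [e, e, sub_add_cancel, show t - b + L' + b = t + L' by ring] at h3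
    rw [mul_smul, mul_smul, ← h3, inv_smul_smul]
  refine ⟨g f, Finset.mem_insert_of_mem (Finset.mem_image_of_mem _ (hF.mem_toFinset.2 hf)), n,
    isConj_iff.2 ⟨γ⁻¹ * β, ?_⟩⟩
  rw [← hn]
  group

theorem Ncc.subgroup (h : Ncc G) (H : Subgroup G) [H.FiniteIndex] : Ncc H := by
  classical
  obtain ⟨T, hT⟩ := h
  have hc : ∀ (a : G) (q : G ⧸ H), ∃ b : H, ∀ j : ℤ, q.out⁻¹ * a ^ j * q.out ∈ H →
      ∃ i : ℤ, q.out⁻¹ * a ^ j * q.out = (b : G) ^ i := by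
    intro a q
    let S : Subgroup G := H ⊓ Subgroup.zpowers (q.out⁻¹ * a * q.out)
    have hS : IsCyclic S := Subgroup.isCyclic_of_le (inf_le_right : S ≤ _)
    obtain ⟨b, hb⟩ := hS.exists_generator
    refine ⟨⟨b.1, b.2.1⟩, fun j hj => ?_⟩
    have hm : q.out⁻¹ * a ^ j * q.out ∈ S := ⟨hj, j, by
      simpa using conj_zpow (a := q.out⁻¹) (b := a) (i := j)⟩
    obtain ⟨i, hi⟩ := hb ⟨_, hm⟩
    exact ⟨i, (congrArg Subtype.val hi).symm⟩
  choose b hb using hc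
  have := Fintype.ofFinite (G ⧸ H)
  refine ⟨(T ×ˢ Finset.univ).image fun p => b p.1 p.2, fun w => ?_⟩
  obtain ⟨a, ha, j, hj⟩ := hT w
  obtain ⟨c, hc⟩ := isConj_iff.1 hj
  obtain ⟨k, hk⟩ := QuotientGroup.mk_out_eq_mul H c
  have e : (QuotientGroup.mk c : G ⧸ H).out⁻¹ * a ^ j * (QuotientGroup.mk c : G ⧸ H).out =
      (k⁻¹ * w * k : H) := by
    rw [hk, ← hc]
    push_cast
    group
  obtain ⟨i, hi⟩ := hb a (QuotientGroup.mk c) j (e ▸ Subtype.property _)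
  refine ⟨b a (QuotientGroup.mk c), Finset.mem_image.2
    ⟨(a, _), Finset.mem_product.2 ⟨ha, Finset.mem_univ _⟩, rfl⟩, i,
    isConj_iff.2 ⟨k⁻¹, Subtype.ext ?_⟩⟩
  rw [inv_inv, ← e, hi]
  simp

theorem Ncc.ker_le (h : Ncc G) (χ : G →* Multiplicative ℤ) (hχ : χ ≠ 1) (N : Subgroup G)
    [N.FiniteIndex] [N.Normal] : χ.ker ≤ N := by
  classical
  intro x hx
  obtain ⟨T, hT⟩ := h
  obtain ⟨t, ht⟩ : ∃ t, (χ t).toAdd ≠ 0 := by
    by_contra h
    push Not at h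
    exact hχ (MonoidHom.ext fun a => by simpa using h a)
  obtain ⟨P, hP⟩ : ∃ P : ℤ, P = ∏ a ∈ T.filter fun a => (χ a).toAdd ≠ 0, (χ a).toAdd := ⟨_, rfl⟩
  have hP0 : P ≠ 0 := hP ▸ Finset.prod_ne_zero_iff.2 fun a ha => (Finset.mem_filter.1 ha).2
  have hq : ∀ (y : G) (k : ℤ), y ^ ((N.index : ℤ) * k) ∈ N := fun y k => by
    rw [zpow_mul, zpow_natCast]
    exact N.zpow_mem (N.pow_index_mem y) k
  have hi : (N.index : ℤ) ≠ 0 := Int.natCast_ne_zero.2 Subgroup.FiniteIndex.index_ne_zero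
  obtain ⟨a, ha, j, hj⟩ := hT (t ^ ((N.index : ℤ) * P) * x)
  obtain ⟨c, hc⟩ := isConj_iff.1 hj
  have h1 : (N.index : ℤ) * P * (χ t).toAdd = j * (χ a).toAdd := by
    have := congrArg (fun y => (χ y).toAdd) hc
    simpa [MonoidHom.mem_ker.1 hx] using this
  have h2 : (χ a).toAdd ≠ 0 := fun e => by
    rw [e, mul_zero] at h1
    exact mul_ne_zero (mul_ne_zero hi hP0) ht h1
  obtain ⟨R, hR⟩ : (χ a).toAdd ∣ P :=
    hP ▸ Finset.dvd_prod_of_mem _ (Finset.mem_filter.2 ⟨ha, h2⟩)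
  have h3 : j = N.index * (R * (χ t).toAdd) := by
    refine mul_right_cancel₀ h2 ?_
    rw [← h1, hR]
    ring
  have h4 : c * (t ^ ((N.index : ℤ) * P) * x) * c⁻¹ ∈ N := by rw [hc, h3]; exact hq a _
  have h5 := ‹N.Normal›.conj_mem _ h4 c⁻¹
  have h6 : t ^ ((N.index : ℤ) * P) * x ∈ N := by simpa [mul_assoc] using h5
  exact (N.mul_mem_cancel_left (hq t P)).1 h6

theorem Ncc.isCyclic (h : Ncc G) [Group.ResiduallyFinite G] (χ : G →* Multiplicative ℤ)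
    (hχ : χ ≠ 1) : IsCyclic G := by
  refine isCyclic_of_injective χ ((MonoidHom.ker_eq_bot_iff χ).1 ?_)
  rw [Subgroup.eq_bot_iff_forall]
  exact fun x hx => Group.eq_one_iff_forall_finiteIndexNormalSubroup x fun N =>
    h.ker_le χ hχ N.toSubgroup hx

theorem balanced_of_virtual (H : Subgroup G) [H.FiniteIndex] (χ : H →* Multiplicative ℤ)
    {w : H} (hw : χ w ≠ 1) : Balanced (w : G) := by
  intro i j h
  obtain ⟨c, hc⟩ := isConj_iff.1 h
  have h1 : ∀ k : ℕ, c ^ k * (w : G) ^ (i ^ k) * (c ^ k)⁻¹ = (w : G) ^ (j ^ k) := by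
    intro k
    induction k with
    | zero => simp
    | succ k ih =>
      have e1 : c * (w : G) ^ (i ^ (k + 1)) * c⁻¹ = ((w : G) ^ (i ^ k)) ^ j := by
        rw [pow_succ', zpow_mul, ← conj_zpow, hc, ← zpow_mul, ← zpow_mul, mul_comm]
      calc c ^ (k + 1) * (w : G) ^ (i ^ (k + 1)) * (c ^ (k + 1))⁻¹
          = c ^ k * (c * (w : G) ^ (i ^ (k + 1)) * c⁻¹) * (c ^ k)⁻¹ := by
            rw [pow_succ c k]; group
        _ = (w : G) ^ (j ^ (k + 1)) := by rw [e1, ← conj_zpow, ih, ← zpow_mul, pow_succ]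
  obtain ⟨k, hk, -, hck⟩ := Subgroup.exists_pow_mem_of_index_ne_zero
    (Subgroup.FiniteIndex.index_ne_zero (H := H)) c
  have h2 : IsConj (w ^ (i ^ k)) (w ^ (j ^ k)) :=
    isConj_iff.2 ⟨⟨c ^ k, hck⟩, Subtype.ext (by simpa using h1 k)⟩
  have h3 := balanced_of_hom χ hw _ _ h2
  rw [abs_pow, abs_pow] at h3
  exact (pow_left_inj₀ (abs_nonneg _) (abs_nonneg _) hk.ne').1 h3

theorem ncc_of_finite {E : Type} [NormedAddCommGroup E] [NormedSpace ℝ E] [FiniteDimensional ℝ E]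
    {M : Type} [MetricSpace M] [CompactSpace M] [ChartedSpace E M] [IsManifold 𝓘(ℝ, E) ∞ M]
    (g : P255.RMetric E M) (hd : P234.IsGeodesicDist g) (G X : Type) [Group G]
    [τX : TopologicalSpace X] [hX : SimplyConnectedSpace X] [MulAction G X] (p : X → M)
    (hp : IsQuotientCoveringMap p G) (hfin : (Images (E := E) g.inner).Finite) : Ncc G := by
  by_contra hn
  obtain ⟨ε₀, hε₀, r1, r2⟩ := sRiem sUC E M g.inner (P234.rm_of_metric g hd)
  obtain ⟨d, ρ, hd, hcv⟩ := cover sDmA (sDmB sDmA sSeg) (sDmC sDmA sSeg) G X M p ε₀ hp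
    (r1 _ hε₀ le_rfl)
  subst hd
  exact images_infinite sLift g.inner hε₀ r1 r2 G X p ρ hcv
    (fun ε s hf => hn (ncc_of_fn s (sFin sUC G X ε s hf))) hfin

end Vale.Agent.P216
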