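import Vale.Agent.P216.Asm

/-! From the abstract theorem to closed Riemannian manifolds. -/

open Set Metric
open scoped Manifold ContDiff

namespace Vale.Agent.P216

theorem images_infinite (hl : SLift) {E : Type} [NormedAddCommGroup E] [NormedSpace ℝ E]
    {M : Type} [MetricSpace M] [CompactSpace M] [ChartedSpace E M]
    (g : M → E →L[ℝ] E →L[ℝ] ℝ) {ε₀ : ℝ} (hε₀ : 0 < ε₀) (h1 : ∀ ε, 0 < ε → ε ≤ ε₀ → Loc M ε)
    (h2 : ∀ (c : ℝ → M) (η : ℝ), 0 < η → Line η c → P255.IsGeodesicOn g c univ)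
    (G X : Type) [Group G] [MetricSpace X] [MulAction G X] (p : X → M) (ρ : ℝ) (hp : Cv G p ρ)
    (hm : ∀ ε, St G X ε → {S | ∃ c : ℝ → X, Cl G c ∧ S = sat G c}.Infinite) :
    (Images g).Infinite := by
  intro hfin
  have hρ := hp.pos
  have hε : 0 < min ε₀ (ρ / 16) := lt_min hε₀ (by positivity)
  have s : St G X (min ε₀ (ρ / 16)) := hl G X M p ρ _ hp (h1 _ hε (min_le_left _ _))
    (by linarith [min_le_right ε₀ (ρ / 16)])
  refine hm _ s ((hfin.image fun S => p ⁻¹' S).subset ?_)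
  rintro _ ⟨c, ⟨⟨η, hη, hc⟩, u, L, hL, hT⟩, rfl⟩
  have hη' : 0 < min η (ρ / 2) := lt_min hη (half_pos hρ)
  have hpc : Line (min η (ρ / 2)) (p ∘ c) := fun a b hab => by
    have e := hc a b (hab.trans (min_le_left _ _))
    have : |a - b| < ρ := (hab.trans (min_le_right _ _)).trans_lt (half_lt_self hρ)
    exact (hp.eq _ _ (e.trans_lt this)).trans e
  refine ⟨range (p ∘ c), ⟨p ∘ c, h2 _ _ hη' hpc, ⟨min η (ρ / 2), 0, fun e => ?_⟩,
    ⟨L, hL, fun t => (hp.orb _ _).2 ⟨u, (hT t).symm⟩⟩, rfl⟩, ?_⟩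
  · have := hpc (min η (ρ / 2)) 0 (by rw [sub_zero, abs_of_pos hη'])
    rw [e, dist_self, sub_zero, abs_of_pos hη'] at this
    exact hη'.ne this
  · ext x
    constructor
    · rintro ⟨t, ht⟩
      obtain ⟨γ, hγ⟩ := (hp.orb _ _).1 (Eq.symm ht)
      exact ⟨γ, t, hγ.symm⟩
    · rintro ⟨γ, t, rfl⟩
      exact ⟨t, ((hp.orb _ _).2 ⟨γ, rfl⟩).symm⟩

theorem top (ha : SDmA) (hb : SDmB) (hc : SDmC) (hl : SLift) (hr : SRiem) (hm : SMain)
    {E : Type} [NormedAddCommGroup E] [NormedSpace ℝ E] [FiniteDimensional ℝ E]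
    {M : Type} [MetricSpace M] [CompactSpace M] [ChartedSpace E M] [IsManifold 𝓘(ℝ, E) ∞ M]
    (g : M → E →L[ℝ] E →L[ℝ] ℝ) (hg : P234.RM g) (G X : Type) [Group G] [τX : TopologicalSpace X]
    [hX : SimplyConnectedSpace X] [MulAction G X] (p : X → M) (hp : IsQuotientCoveringMap p G)
    (τ : G → ℝ) (h1 : Gauge τ) (h2 : BigCent τ) : (Images g).Infinite := by
  obtain ⟨ε₀, hε₀, r1, r2⟩ := hr E M g hg
  obtain ⟨d, ρ, hd, hcv⟩ := cover ha hb hc G X M p ε₀ hp (r1 _ hε₀ le_rfl)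
  subst hd
  exact images_infinite hl g hε₀ r1 r2 G X p ρ hcv fun ε s => hm G X ε s τ h1 h2

theorem gauge_of_hom {G : Type} [Group G] (χ : G →* Multiplicative ℤ) (hχ : χ ≠ 1) :
    Gauge fun a => |((χ a).toAdd : ℝ)| := by
  refine ⟨fun a => abs_nonneg _, fun a h => by simp, fun a n => by simp [abs_mul], ?_⟩
  by_contra h
  push Not at h
  exact hχ (MonoidHom.ext fun a => by simpa using h a)

end Vale.Agent.P216
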